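import Vale.Agent.P088.R2.H673.P4.PL

/-!
# P088, stage 3, **row P4**: existence of the quasimode
-/

open MeasureTheory Set Filter
open scoped ContDiff Matrix Topology

noncomputable section

namespace Vale.Agent.P088.HY.S3

open Vale.Agent.P088.LR Vale.Agent.P088.HY.QM
open Vale.Agent.P088.HY.T3 (e0 iv Eb Ac Ao Nrm isOpen_Ao isCompact_Ac isClosed_Ac rt_ball cont_rt)
open Vale.Agent.P088.HY.T4 (gy gx Lvl SelD Zq Oc WB cg It RowP2 RowP4 QK)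

/-- **Row P4.** -/
theorem rowP4 (hI : RowINV) (hP2 : RowP2) : RowP4 := by
  intro n hn3 σ a b hσ hσ1 ha _ hb D hD
  have hn : 1 ≤ n := by omega
  have hn0 : (0 : ℝ) < n := by exact_mod_cast hn
  have hD10 : 10 ≤ D := by linarith
  obtain ⟨K7, Nq, C7, ε7, hK7, hC7, hε7, hε7', H7⟩ := qm7 hI n hn
  obtain ⟨Mθ, hMθ, hth⟩ := th_bd n
  obtain ⟨q, hq⟩ : ∃ q, q = D + n + 6 + b := ⟨_, rfl⟩
  have hq0 : 0 ≤ q := by rw [hq]; linarith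
  obtain ⟨Cκ, hCκ⟩ : ∃ Cκ, Cκ = (2 * D + b) * 4 + b + (a + n + 4) := ⟨_, rfl⟩
  have hCκ0 : 0 ≤ Cκ := by rw [hCκ]; linarith
  refine ⟨q, hq0, 1 + 2 * n * Cκ * Mθ / σ, fun ν hν K => ?_⟩
  have hνθ : 0 ≤ 2 * n * Cκ * Mθ / σ := by positivity
  have hν1 : 1 ≤ ν := by linarith
  obtain ⟨N, hND⟩ : ∃ N, N = ν + D := ⟨_, rfl⟩
  have hN1 : 1 ≤ N := by linarith
  have hN : 0 < N := by linarith
  obtain ⟨κ, hκd⟩ : ∃ κ, κ = Cκ / N := ⟨_, rfl⟩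
  have hκ : 0 ≤ κ := by rw [hκd]; exact div_nonneg hCκ0 hN.le
  have hκN : N * κ = (2 * D + b) * 4 + b + (a + n + 4) := by
    rw [hκd, ← hCκ, mul_div_cancel₀ _ hN.ne']
  have hκM : n * (κ * Mθ) ≤ σ / 2 := by
    rw [hκd, div_mul_eq_mul_div, ← mul_div_assoc, div_le_iff₀ hN]
    have h1 : 2 * n * Cκ * Mθ / σ ≤ N := by linarith
    rw [div_le_iff₀ hσ] at h1
    linarith
  have hLvl := gyt_lvl hn hσ hσ1 hκ hMθ hκM hth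
  obtain ⟨K2, ε2, C2, ρ2, hε2, hC2, H2⟩ := hP2 n hn3 2 (σ / 2) (1 / 10) (by norm_num)
    (by linarith) (by norm_num)
  obtain ⟨Kd, hKd⟩ : ∃ Kd, Kd = max K 2 := ⟨_, rfl⟩
  have hKd2 : 2 ≤ Kd := by rw [hKd]; exact le_max_right _ _
  have hKdK : K ≤ Kd := by rw [hKd]; exact le_max_left _ _
  obtain ⟨Kq, hKq⟩ : ∃ Kq, Kq = max K7 (Kd + 2) := ⟨_, rfl⟩
  have hKq7 : K7 ≤ Kq := by rw [hKq]; exact le_max_left _ _
  have hKqd : Kd + 2 ≤ Kq := by rw [hKq]; exact le_max_right _ _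
  obtain ⟨Λ, v, hΛ, hv0, hvol, HQ⟩ := qdat n σ κ Kq
  obtain ⟨Cχ, hCχ, Hχ⟩ := chiJ n Kq
  obtain ⟨Ck, hCk, Hk⟩ := kqJ n Kq hn
  obtain ⟨Ct, hCt, Ht⟩ := exists_tfpJ n 0 hn
  obtain ⟨Cη, hCη, Hη⟩ := eta_dat n
  obtain ⟨ε, hεd⟩ : ∃ ε, ε = min ε7 ε2 := ⟨_, rfl⟩
  have hεε7 : ε ≤ ε7 := by rw [hεd]; exact min_le_left _ _
  have hεε2 : ε ≤ ε2 := by rw [hεd]; exact min_le_right _ _
  refine ⟨Kq, max Kq K2, ε, by rw [hεd]; exact lt_min hε7 hε2, ?_⟩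
  intro s hs hs1 c C₁ C hc hC₁ hC
  have hrn := rn_pos (n := n)
  obtain ⟨aC, haC⟩ : ∃ aC, aC = C7 * Cη * 30 ^ 2 * (N * Λ / rn n * (v + 1)) ^ Nq *
    (Cχ * (4 * Λ) ^ (2 * Kq) * (N * Λ) ^ K7 * C) := ⟨_, rfl⟩
  have haC0 : 0 ≤ aC := by rw [haC]; positivity
  obtain ⟨mN, hmN⟩ : ∃ mN, mN = 4 + Nq + 2 * Kq + K7 := ⟨_, rfl⟩
  obtain ⟨Lj, hLj⟩ : ∃ Lj, Lj = Ck * (Cχ * (4 * Λ) ^ (2 * Kq)) * (N * Λ) ^ Kq * C := ⟨_, rfl⟩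
  have hLj0 : 0 ≤ Lj := by rw [hLj]; positivity
  obtain ⟨p, hp⟩ : ∃ p : ℕ, 2 * D + 2 * b + 2 * (n + 4) ≤ p := ⟨_, Nat.le_ceil _⟩
  have hg0 : 0 ≤ gI n := integral_nonneg fun x => by unfold gs; positivity
  obtain ⟨Cg, hCg, hgr⟩ := growth (m := mN + C)
  obtain ⟨c1, hc1⟩ : ∃ c1, c1 = 4 * Real.exp (2 * C₁) / c * (gI n / √(c / n) ^ (n + 4) * v ^ 2 +
      (1 + p.factorial / (c / (2 * n)) ^ p) * (v ^ 2) ^ 2) * aC ^ 2 := ⟨_, rfl⟩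
  have hc10 : 0 ≤ c1 := by rw [hc1]; positivity
  obtain ⟨c2, hc2⟩ : ∃ c2, c2 = 96 * cJ n Kd * Lj := ⟨_, rfl⟩
  have hcJ := cJ_nonneg n Kd
  have hc20 : 0 ≤ c2 := by rw [hc2]; positivity
  obtain ⟨c3, hc3⟩ : ∃ c3, c3 = aC * Cg := ⟨_, rfl⟩
  have hc30 : 0 ≤ c3 := by rw [hc3]; positivity
  obtain ⟨c4, hc4⟩ : ∃ c4, c4 = aC * Cg * (v ^ 2 * (n * n)) + v ^ 2 * (2 * (n * (n * Ct ^ 2))) :=
    ⟨_, rfl⟩
  have hc40 : 0 ≤ c4 := by rw [hc4]; positivity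
  obtain ⟨m0, hm0d⟩ : ∃ m0 : ℝ, m0 = C₁ + 4 * p + 2 * mN + 2 * C := ⟨_, rfl⟩
  obtain ⟨m1, hm1d⟩ : ∃ m1 : ℝ, m1 = ((2 * Kq + Kq : ℕ) : ℝ) + C := ⟨_, rfl⟩
  have hm0 : 0 ≤ m0 := by
    have h1 : (0 : ℝ) ≤ p := Nat.cast_nonneg p
    have h2 : (0 : ℝ) ≤ mN := Nat.cast_nonneg mN
    rw [hm0d]; linarith
  have hm1 : 0 ≤ m1 := by
    have h1 : (0 : ℝ) ≤ ((2 * Kq + Kq : ℕ) : ℝ) := Nat.cast_nonneg _
    rw [hm1d]; linarith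
  obtain ⟨C', hC'⟩ : ∃ C', C' = c1 + c2 + c3 + c4 + m0 + m1 := ⟨_, rfl⟩
  have hC'0 : 0 ≤ C' := by rw [hC']; linarith only [hc10, hc20, hc30, hc40, hm0, hm1]
  have g1 : c1 ≤ C' := by rw [hC']; linarith only [hc10, hc20, hc30, hc40, hm0, hm1]
  have g2 : c2 ≤ C' := by rw [hC']; linarith only [hc10, hc20, hc30, hc40, hm0, hm1]
  have g3 : c3 ≤ C' := by rw [hC']; linarith only [hc10, hc20, hc30, hc40, hm0, hm1]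
  have g4 : c4 ≤ C' := by rw [hC']; linarith only [hc10, hc20, hc30, hc40, hm0, hm1]
  have g5 : m0 ≤ C' := by rw [hC']; linarith only [hc10, hc20, hc30, hc40, hm0, hm1]
  have g6 : m1 ≤ C' := by rw [hC']; linarith only [hc10, hc20, hc30, hc40, hm0, hm1]
  rw [hc1] at g1
  rw [hc2] at g2
  rw [hc3] at g3
  rw [hc4] at g4
  rw [hm0d] at g5
  rw [hm1d] at g6
  refine ⟨C', 1, 8 + |ρ2| + C2 + 200 * (n + 1) + 2 * (N + q) * Λ + 8 * Λ, 1 / 50, hC'0, by norm_num,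
    ?_⟩
  intro s₁ s₂ G hNrm R kap Gs δ ps hR₀ hR1 hRk hkη hGs hSel
  have hR0 : 0 < R := by linarith only [hR1]
  have hΛ0 : 0 ≤ Λ := by linarith only [hΛ]
  have hqΛ : 0 ≤ 2 * (N + q) * Λ := by positivity
  have habs := abs_nonneg ρ2
  have hNR : R ≤ N * R := le_mul_of_one_le_left hR0.le hN1
  have hle := le_abs_self ρ2
  have hn200 : (0 : ℝ) ≤ 200 * (n + 1) := by positivity
  have hRC : RC n ρ2 C2 N q Λ R :=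
    { r8 := by linarith only [hR₀, habs, hC2, hqΛ, hΛ0, hn200]
      rρ := by linarith only [hR₀, habs, hC2, hqΛ, hΛ0, hn200, hNR, hle]
      rC := by linarith only [hR₀, habs, hC2, hqΛ, hΛ0, hn200, hNR]
      rn := by linarith only [hR₀, habs, hC2, hqΛ, hΛ0, hn200]
      rΛ := by linarith only [hR₀, habs, hC2, hqΛ, hΛ0, hn200]
      rΛ' := by linarith only [hR₀, habs, hC2, hqΛ, hΛ0, hn200] }
  rw [Real.rpow_one] at hRk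
  rw [← hND] at hSel
  have hSolv := mk_solv (K := Kq) hN1 H2 hLvl hRC hNrm hεε2
  have hS := mk_sit hn hσ hσ1 hκ hN1 hq0 hRC rfl hRk hkη rfl hGs hNrm hvol
    (hεε7.trans hε7') hs hs1 hC (by linarith only [hCχ]) hCη HQ Hχ Hη hSolv hSel
  obtain ⟨K0, A, A1, hA10, hA1A, hAe, hKP, hcs, hPr⟩ := mk_K0 H7 hC7 hS hKq7 hεε7 hv0 rfl haC
  rw [← hmN] at hAe
  have hA0 : 0 ≤ A := hA10.trans hA1A
  have hKq1 : 1 ≤ Kq := by omega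
  have hν0 : 0 ≤ ν := by linarith only [hν1]
  refine ⟨K0, ?_⟩
  exact
  { sm := hKP.sm
    cs := hcs
    su := fun z hz => st_su hS hKP hz
    er := fun W w hW => st_er hS hKq1 hKP hND ha hb hD hq hκN hc hp hA10 hA1A hAe hg0 g1 g5 hW
    jt := fun x hx m hm z hz => st_jt hS hKd2 hKqd hKP hND hC₁ hb hq hCk rfl
      (Hk hS.hε hS.hQ hS.hH) hLj g2 g6 hC'0 (hm.trans hKdK) hx hz
    fa := fun x _ y _ hxy => st_fa hS hKP hND hν0 hD10 hA0 haC0 hAe (hgr R hR1) g3 hxy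
    pr := fun φ hφ hφ0 hφ1 hφb B hφB => st_pr hS hPr hND hν0 hD10 hA0 haC0 hAe (hgr R hR1) hCg hCt
      Ht g4 hφ hφ0 hφ1 hφb hφB }

end Vale.Agent.P088.HY.S3

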