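import Vale.Agent.P088.R2.H404.P1a
import Vale.Agent.P088.R2.H673.S3.SF

/-!
# P088, stage 3, P4: the modified level function
-/

open MeasureTheory Set Filter
open scoped ContDiff Matrix Topology

noncomputable section

namespace Vale.Agent.P088.HY.S3

open Vale.Agent.P088.LR Vale.Agent.P088.HY.QM
open Vale.Agent.P088.HY.T3 (e0 iv Eb Ac Ao Nrm)
open Vale.Agent.P088.HY.T4 (gy gx Lvl)

variable {n : ℕ}

theorem sq_cd : ContDiff ℝ ∞ (fun x : V n => sq x) := by
  unfold sq; fun_prop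

/-- The cut-off: `0` for `sq y ≤ 1.03`, `1` for `1.1 ≤ sq y`. -/
def th (y : V n) : ℝ := Real.smoothTransition ((sq y - 103 / 100) * (100 / 7))

theorem th_cd : ContDiff ℝ ∞ (th : V n → ℝ) :=
  Real.smoothTransition.contDiff.comp ((sq_cd.sub contDiff_const).mul contDiff_const)

theorem th_0 {y : V n} (h : sq y ≤ 103 / 100) : th y = 0 :=
  Real.smoothTransition.zero_of_nonpos (by nlinarith)

theorem th_1 {y : V n} (h : 11 / 10 ≤ sq y) : th y = 1 :=
  Real.smoothTransition.one_of_one_le (by nlinarith)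

theorem th_nonneg (y : V n) : 0 ≤ th y := Real.smoothTransition.nonneg _

theorem th_le (y : V n) : th y ≤ 1 := Real.smoothTransition.le_one _

/-- The modified level function in the inverted chart. -/
def gyt (n : ℕ) (σ κ : ℝ) (y : V n) : ℝ := gy n σ y - κ * th y

/-- The modified level function in the chart. -/
def gxt (n : ℕ) (σ κ : ℝ) (x : V n) : ℝ := gyt n σ κ (iv x)

theorem gy_cd (σ : ℝ) : ContDiff ℝ ∞ (gy n σ) := by
  unfold gy sq
  simp only [Pi.sub_apply]
  fun_prop

theorem gyt_cd (σ κ : ℝ) : ContDiff ℝ ∞ (gyt n σ κ) :=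
  (gy_cd σ).sub (contDiff_const.mul th_cd)

theorem pd_subc {f g : V n → ℝ} (hf : ContDiff ℝ ∞ f) (hg : ContDiff ℝ ∞ g) (κ : ℝ) (i : Fin n) :
    pd i (fun y => f y - κ * g y) = fun y => pd i f y - κ * pd i g y := by
  funext y
  have h1 : DifferentiableAt ℝ f y := (hf.differentiable (by simp)) y
  have h2 : DifferentiableAt ℝ g y := (hg.differentiable (by simp)) y
  unfold pd
  rw [fderiv_fun_sub h1 (h2.const_mul κ), fderiv_const_mul h2]
  rfl

theorem diff_coord (l : Fin n) (c : ℝ) (x : V n) : DifferentiableAt ℝ (fun x : V n => x l - c) x := by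
  fun_prop

theorem pd_gy (σ : ℝ) (i : Fin n) :
    pd i (gy n σ) = fun y => e0 n i + σ * (y i - e0 n i) := by
  funext y
  have e : gy n σ = fun y : V n => (∑ j, (y j - 0) * e0 n j) +
        ((∑ j, (σ / 2) * ((y j - e0 n j) * (y j - e0 n j))) + (-1 : ℝ)) := by
    funext y
    unfold gy sq
    rw [Finset.mul_sum]
    simp only [sub_zero, Pi.sub_apply]
    have : ∀ j, σ / 2 * (y j - e0 n j) ^ 2 = σ / 2 * ((y j - e0 n j) * (y j - e0 n j)) := by
      intro j; ring
    simp only [this]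
    ring
  have d1 : ∀ j, DifferentiableAt ℝ (fun y : V n => (y j - 0) * e0 n j) y := fun j => by fun_prop
  have d2 : ∀ j, DifferentiableAt ℝ (fun y : V n => (y j - e0 n j) * (y j - e0 n j)) y :=
    fun j => by fun_prop
  have d3 : ∀ j, DifferentiableAt ℝ (fun y : V n => σ / 2 * ((y j - e0 n j) * (y j - e0 n j))) y :=
    fun j => by fun_prop
  have d4 : DifferentiableAt ℝ (fun y : V n => ∑ j, (y j - 0) * e0 n j) y := by fun_prop
  have d5 : DifferentiableAt ℝ (fun y : V n => ∑ j, σ / 2 *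
      ((y j - e0 n j) * (y j - e0 n j))) y := by fun_prop
  have d6 : DifferentiableAt ℝ (fun y : V n => (∑ j, σ / 2 *
      ((y j - e0 n j) * (y j - e0 n j))) + (-1 : ℝ)) y := by fun_prop
  have a1 := QM.pd_add (i := i) d4 d6
  have a2 := QM.pd_add (i := i) d5 (differentiableAt_const (-1 : ℝ))
  rw [e, a1, a2, QM.pd_sum fun j _ => d1 j, QM.pd_sum fun j _ => d3 j, QM.pd_const, add_zero]
  have h1 : ∀ j, pd i (fun y : V n => (y j - 0) * e0 n j) y = if i = j then e0 n j else 0 := by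
    intro j
    rw [QM.pd_mul (diff_coord j 0 y) (differentiableAt_const _), QM.pd_const, QM.pd_coord]
    split_ifs <;> simp
  have h2 : ∀ j, pd i (fun y : V n => σ / 2 * ((y j - e0 n j) * (y j - e0 n j))) y =
      if i = j then σ * (y j - e0 n j) else 0 := by
    intro j
    rw [QM.pd_mul (differentiableAt_const _) (d2 j), QM.pd_const,
      QM.pd_mul (diff_coord j _ y) (diff_coord j _ y), QM.pd_coord]
    split_ifs <;> ring
  simp only [h1, h2, Finset.sum_ite_eq, Finset.mem_univ, if_true]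

theorem pd2_gy (σ : ℝ) (i j : Fin n) :
    pd i (pd j (gy n σ)) = fun _ => if i = j then σ else 0 := by
  rw [pd_gy]
  funext y
  have d1 : DifferentiableAt ℝ (fun y : V n => σ * (y j - e0 n j)) y := by fun_prop
  have a1 := QM.pd_add (i := i) (differentiableAt_const (e0 n j)) d1
  have a2 := QM.pd_mul (i := i) (differentiableAt_const σ) (diff_coord j (e0 n j) y)
  rw [a1, QM.pd_const, a2, QM.pd_const, QM.pd_coord]
  split_ifs <;> simp

theorem pd3_gy (σ : ℝ) (i j k : Fin n) :
    pd i (pd j (pd k (gy n σ))) = fun _ => 0 := by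
  rw [pd2_gy]
  funext y
  rw [QM.pd_const]

/-- Bounds of the derivatives of the cut-off. -/
theorem th_bd (n : ℕ) : ∃ M : ℝ, 0 ≤ M ∧ ∀ y ∈ Eb (0 : V n) (5 / 4), (∀ i, |pd i th y| ≤ M) ∧
    (∀ i j, |pd i (pd j th) y| ≤ M) ∧ (∀ i j k, |pd i (pd j (pd k th)) y| ≤ M) := by
  have c1 : ∀ i, ContDiff ℝ ∞ (pd i (th : V n → ℝ)) := fun i => cdpd th_cd i
  have c2 : ∀ i j, ContDiff ℝ ∞ (pd i (pd j (th : V n → ℝ))) := fun i j => cdpd (c1 j) i
  have c3 : ∀ i j k, ContDiff ℝ ∞ (pd i (pd j (pd k (th : V n → ℝ)))) := fun i j k =>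
    cdpd (c2 j k) i
  set F : V n → ℝ := fun y => (∑ i, |pd i th y|) + ((∑ i, ∑ j, |pd i (pd j th) y|) +
    ∑ i, ∑ j, ∑ k, |pd i (pd j (pd k th)) y|) with hF
  have hc : Continuous F := by
    refine (continuous_finsetSum _ fun i _ => (c1 i).continuous.abs).add
      ((continuous_finsetSum _ fun i _ => continuous_finsetSum _ fun j _ =>
        (c2 i j).continuous.abs).add (continuous_finsetSum _ fun i _ =>
        continuous_finsetSum _ fun j _ => continuous_finsetSum _ fun k _ =>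
        (c3 i j k).continuous.abs))
  obtain ⟨M, hM⟩ := (isCompact_closedBall (0 : V n) (5 / 4)).exists_bound_of_continuousOn
    hc.continuousOn
  have hM0 : 0 ≤ M := (norm_nonneg _).trans (hM 0 (Metric.mem_closedBall_self (by norm_num)))
  refine ⟨M, hM0, fun y hy => ?_⟩
  have hy' : y ∈ Metric.closedBall (0 : V n) (5 / 4) := by
    rw [mem_closedBall_zero_iff, pi_norm_le_iff_of_nonneg (by norm_num)]
    intro i
    have h4 : (y - 0) i ^ 2 ≤ sq (y - 0) := Finset.single_le_sum
      (f := fun j => (y - 0) j ^ 2) (fun j _ => sq_nonneg _) (Finset.mem_univ i)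
    have h5 : sq (y - 0) < (5 / 4) ^ 2 := hy
    rw [sub_zero] at h4 h5
    exact abs_le_of_sq_le_sq (by linarith) (by norm_num)
  have h1 := hM y hy'
  rw [Real.norm_eq_abs] at h1
  have h2 := (le_abs_self _).trans h1
  have n1 : 0 ≤ ∑ i, |pd i th y| := Finset.sum_nonneg fun _ _ => abs_nonneg _
  have n2 : 0 ≤ ∑ i, ∑ j, |pd i (pd j th) y| :=
    Finset.sum_nonneg fun _ _ => Finset.sum_nonneg fun _ _ => abs_nonneg _
  have n3 : 0 ≤ ∑ i, ∑ j, ∑ k, |pd i (pd j (pd k th)) y| :=
    Finset.sum_nonneg fun _ _ => Finset.sum_nonneg fun _ _ => Finset.sum_nonneg fun _ _ =>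
      abs_nonneg _
  simp only [hF] at h2
  refine ⟨fun i => ?_, fun i j => ?_, fun i j k => ?_⟩
  · have := Finset.single_le_sum (f := fun i => |pd i th y|) (fun _ _ => abs_nonneg _)
      (Finset.mem_univ i)
    linarith
  · have a1 := Finset.single_le_sum (f := fun i => ∑ j, |pd i (pd j th) y|)
      (fun _ _ => Finset.sum_nonneg fun _ _ => abs_nonneg _) (Finset.mem_univ i)
    have a2 := Finset.single_le_sum (f := fun j => |pd i (pd j th) y|)
      (fun _ _ => abs_nonneg _) (Finset.mem_univ j)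
    linarith
  · have a1 := Finset.single_le_sum (f := fun i => ∑ j, ∑ k, |pd i (pd j (pd k th)) y|)
      (fun _ _ => Finset.sum_nonneg fun _ _ => Finset.sum_nonneg fun _ _ => abs_nonneg _)
      (Finset.mem_univ i)
    have a2 := Finset.single_le_sum (f := fun j => ∑ k, |pd i (pd j (pd k th)) y|)
      (fun _ _ => Finset.sum_nonneg fun _ _ => abs_nonneg _) (Finset.mem_univ j)
    have a3 := Finset.single_le_sum (f := fun k => |pd i (pd j (pd k th)) y|)
      (fun _ _ => abs_nonneg _) (Finset.mem_univ k)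
    linarith

/-- The modified level function is admissible for P2. -/
theorem gyt_lvl (hn : 1 ≤ n) {σ κ M : ℝ} (hσ : 0 < σ) (hσ1 : σ ≤ 1 / 10) (hκ : 0 ≤ κ) (hM : 0 ≤ M)
    (hκM : n * (κ * M) ≤ σ / 2)
    (hth : ∀ y ∈ Eb (0 : V n) (5 / 4), (∀ i, |pd i th y| ≤ M) ∧
    (∀ i j, |pd i (pd j th) y| ≤ M) ∧ (∀ i j k, |pd i (pd j (pd k th)) y| ≤ M)) :
    Lvl n 2 (σ / 2) (1 / 10) (gyt n σ κ) := by
  have hn1 : (1 : ℝ) ≤ n := by exact_mod_cast hn
  have hκM0 : 0 ≤ κ * M := mul_nonneg hκ hM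
  have hkm : κ * M ≤ σ / 2 := by nlinarith
  have q1 : ∀ i, pd i (gyt n σ κ) = fun y => (e0 n i + σ * (y i - e0 n i)) - κ * pd i th y := by
    intro i
    unfold gyt
    rw [pd_subc (gy_cd σ) th_cd, pd_gy]
  have q2 : ∀ i j, pd i (pd j (gyt n σ κ)) =
      fun y => (if i = j then σ else 0) - κ * pd i (pd j th) y := by
    intro i j
    have : pd j (gyt n σ κ) = fun y => pd j (gy n σ) y - κ * pd j th y := by
      unfold gyt
      rw [pd_subc (gy_cd σ) th_cd]
    rw [this, pd_subc (cdpd (gy_cd σ) j) (cdpd th_cd j), pd2_gy]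
  have q3 : ∀ i j k, pd i (pd j (pd k (gyt n σ κ))) =
      fun y => 0 - κ * pd i (pd j (pd k th)) y := by
    intro i j k
    have : pd j (pd k (gyt n σ κ)) = fun y => pd j (pd k (gy n σ)) y - κ * pd j (pd k th) y := by
      have : pd k (gyt n σ κ) = fun y => pd k (gy n σ) y - κ * pd k th y := by
        unfold gyt
        rw [pd_subc (gy_cd σ) th_cd]
      rw [this, pd_subc (cdpd (gy_cd σ) k) (cdpd th_cd k)]
    rw [this, pd_subc (cdpd (cdpd (gy_cd σ) k) j) (cdpd (cdpd th_cd k) j), pd3_gy]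
  have key : ∀ a : ℝ, |a| ≤ M → |κ * a| ≤ σ / 2 := by
    intro a ha
    rw [abs_mul, abs_of_nonneg hκ]
    exact (mul_le_mul_of_nonneg_left ha hκ).trans hkm
  have e0b : ∀ i, |e0 n i| ≤ 1 := by
    intro i; unfold e0; split_ifs <;> simp
  have hyi : ∀ y ∈ Eb (0 : V n) (5 / 4), sq y ≤ 25 / 16 := by
    intro y hy
    have h5 : sq (y - 0) < (5 / 4) ^ 2 := hy
    rw [sub_zero] at h5
    norm_num at h5 ⊢; linarith
  have hyc : ∀ y ∈ Eb (0 : V n) (5 / 4), ∀ i, |y i| ≤ 5 / 4 := by
    intro y hy i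
    have h4 : y i ^ 2 ≤ sq y := Finset.single_le_sum
      (f := fun j => y j ^ 2) (fun j _ => sq_nonneg _) (Finset.mem_univ i)
    have := hyi y hy
    exact abs_le_of_sq_le_sq (by norm_num; linarith) (by norm_num)
  refine ⟨gyt_cd σ κ, ?_, ?_, ?_, ?_, ?_⟩
  · intro y hy i
    rw [q1]
    have h1 := key _ ((hth y hy).1 i)
    have h2 := e0b i
    have h3 := hyc y hy i
    have h4 : |σ * (y i - e0 n i)| ≤ 1 / 10 * (9 / 4) := by
      rw [abs_mul, abs_of_pos hσ]
      refine mul_le_mul hσ1 ((abs_sub _ _).trans ?_) (abs_nonneg _) (by norm_num)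
      linarith
    calc |e0 n i + σ * (y i - e0 n i) - κ * pd i th y|
        ≤ |e0 n i + σ * (y i - e0 n i)| + |κ * pd i th y| := abs_sub _ _
      _ ≤ (|e0 n i| + |σ * (y i - e0 n i)|) + |κ * pd i th y| :=
          add_le_add (abs_add_le _ _) le_rfl
      _ ≤ 2 := by linarith
  · intro y hy i j
    rw [q2]
    have h1 := key _ ((hth y hy).2.1 i j)
    have h2 : |(if i = j then σ else 0 : ℝ)| ≤ 1 / 10 := by
      split_ifs
      · rw [abs_of_pos hσ]; exact hσ1
      · simp
    refine (abs_sub _ _).trans ?_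
    linarith
  · intro y hy i j k
    rw [q3]
    have h1 := key _ ((hth y hy).2.2 i j k)
    show |0 - κ * pd i (pd j (pd k th)) y| ≤ 2
    rw [zero_sub, abs_neg]
    linarith
  · intro y hy
    simp only [q1]
    have e1 : ∑ i, (e0 n i + σ * (y i - e0 n i)) ^ 2 =
        1 + 2 * σ * (∑ i, e0 n i * (y i - e0 n i)) + σ ^ 2 * sq (y - e0 n) := by
      rw [← T4.sq_e0 hn]
      unfold sq
      rw [Finset.mul_sum, Finset.mul_sum, ← Finset.sum_add_distrib, ← Finset.sum_add_distrib]
      refine Finset.sum_congr rfl fun i _ => ?_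
      rw [Pi.sub_apply]; ring
    have e2 : ∑ i, e0 n i * (y i - e0 n i) = (sq (y + e0 n) - sq y - 1) / 2 - 1 := by
      have h1 : ∑ i, e0 n i * (y i - e0 n i) = (∑ i, e0 n i * y i) - sq (e0 n) := by
        unfold sq
        rw [← Finset.sum_sub_distrib]
        exact Finset.sum_congr rfl fun i _ => by ring
      have h2 : sq (y + e0 n) = sq y + 2 * (∑ i, e0 n i * y i) + sq (e0 n) := by
        unfold sq
        rw [Finset.mul_sum, ← Finset.sum_add_distrib, ← Finset.sum_add_distrib]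
        refine Finset.sum_congr rfl fun i _ => ?_
        rw [Pi.add_apply]; ring
      rw [h1, h2, T4.sq_e0 hn]; ring
    have h3 : 0 ≤ sq (y + e0 n) := T4.sq_nonneg' _
    have h4 : 0 ≤ sq (y - e0 n) := T4.sq_nonneg' _
    have h5 := hyi y hy
    have h6 : 54 / 100 ≤ ∑ i, (e0 n i + σ * (y i - e0 n i)) ^ 2 := by
      rw [e1, e2]
      have h7 : -(73 / 32) ≤ (sq (y + e0 n) - sq y - 1) / 2 - 1 := by linarith
      have h8 : 2 * σ * (-(73 / 32)) ≤ 2 * σ * ((sq (y + e0 n) - sq y - 1) / 2 - 1) :=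
        mul_le_mul_of_nonneg_left h7 (by linarith)
      have h9 : 0 ≤ σ ^ 2 * sq (y - e0 n) := by positivity
      nlinarith
    have h7 : ∑ i : Fin n, (κ * pd i th y) ^ 2 ≤ 1 / 100 := by
      calc ∑ i : Fin n, (κ * pd i th y) ^ 2 ≤ ∑ _i : Fin n, (κ * M) ^ 2 := by
            refine Finset.sum_le_sum fun i _ => ?_
            rw [← sq_abs, abs_mul, abs_of_nonneg hκ]
            exact pow_le_pow_left₀ (by positivity)
              (mul_le_mul_of_nonneg_left ((hth y hy).1 i) hκ) 2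
        _ = n * (κ * M) ^ 2 := by
            rw [Finset.sum_const, Finset.card_univ, Fintype.card_fin, nsmul_eq_mul]
        _ ≤ 1 / 100 := by nlinarith
    have h8 : (1 / 2) * ∑ i, (e0 n i + σ * (y i - e0 n i)) ^ 2 -
        ∑ i : Fin n, (κ * pd i th y) ^ 2 ≤
        ∑ i, (e0 n i + σ * (y i - e0 n i) - κ * pd i th y) ^ 2 := by
      rw [Finset.mul_sum, ← Finset.sum_sub_distrib]
      refine Finset.sum_le_sum fun i _ => ?_
      nlinarith [sq_nonneg (e0 n i + σ * (y i - e0 n i) - 2 * (κ * pd i th y))]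
    linarith
  · intro y hy ξ
    simp only [q2]
    have e1 : ∑ i, ∑ j, ξ i * ξ j * ((if i = j then σ else 0) - κ * pd i (pd j th) y) =
        σ * ∑ i, ξ i ^ 2 - ∑ i, ∑ j, ξ i * ξ j * (κ * pd i (pd j th) y) := by
      have h1 : ∀ i j, ξ i * ξ j * ((if i = j then σ else 0) - κ * pd i (pd j th) y) =
          (if i = j then σ * ξ i ^ 2 else 0) - ξ i * ξ j * (κ * pd i (pd j th) y) := by
        intro i j
        split_ifs with h
        · rw [h]; ring
        · ring
      simp only [h1, Finset.sum_sub_distrib, Finset.sum_ite_eq, Finset.mem_univ, if_true]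
      rw [Finset.mul_sum]
    rw [e1]
    have h2 : ∑ i, ∑ j, ξ i * ξ j * (κ * pd i (pd j th) y) ≤ σ / 2 * ∑ i, ξ i ^ 2 := by
      calc ∑ i, ∑ j, ξ i * ξ j * (κ * pd i (pd j th) y)
          ≤ ∑ i, ∑ j, (κ * M) * (|ξ i| * |ξ j|) := by
            refine Finset.sum_le_sum fun i _ => Finset.sum_le_sum fun j _ => ?_
            refine (le_abs_self _).trans ?_
            rw [abs_mul, abs_mul, abs_mul, abs_of_nonneg hκ, mul_comm]
            exact mul_le_mul_of_nonneg_right
              (mul_le_mul_of_nonneg_left ((hth y hy).2.1 i j) hκ) (by positivity)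
        _ = (κ * M) * (∑ i, |ξ i|) ^ 2 := by
            rw [pow_two, Finset.sum_mul_sum, Finset.mul_sum]
            exact Finset.sum_congr rfl fun i _ => by rw [Finset.mul_sum]
        _ ≤ (κ * M) * (n * ∑ i, |ξ i| ^ 2) := by
            refine mul_le_mul_of_nonneg_left ?_ hκM0
            have := sq_sum_le_card_mul_sum_sq (s := (Finset.univ : Finset (Fin n)))
              (f := fun i => |ξ i|)
            simpa using this
        _ = (n * (κ * M)) * ∑ i, ξ i ^ 2 := by
            simp only [sq_abs]; ring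
        _ ≤ _ := mul_le_mul_of_nonneg_right hκM (Finset.sum_nonneg fun _ _ => sq_nonneg _)
    linarith

end Vale.Agent.P088.HY.S3
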