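import Vale.Agent.P088.R2.H673.P4.PB

/-!
# P088, stage 3, P4: the geometry
-/

open MeasureTheory Set Filter
open scoped ContDiff Matrix Topology

noncomputable section

namespace Vale.Agent.P088.HY.S3

open Vale.Agent.P088.LR Vale.Agent.P088.HY.QM
open Vale.Agent.P088.HY.T3 (e0 iv Eb Ac Ao Nrm isOpen_Ao isCompact_Ac rt_ball)
open Vale.Agent.P088.HY.T4 (gy gx Lvl)

variable {n : ℕ}

/-! ## Values of the level function -/

theorem rt_sq (x : V n) : √(sq x) ^ 2 = sq x := Real.sq_sqrt (T4.sq_nonneg' x)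

theorem sq_ge {a : ℝ} (ha : 0 ≤ a) {x : V n} (h : a ≤ √(sq x)) : a ^ 2 ≤ sq x := by
  rw [← rt_sq x]; exact pow_le_pow_left₀ ha h 2

theorem sq_le {a : ℝ} {x : V n} (h : √(sq x) ≤ a) : sq x ≤ a ^ 2 := by
  rw [← rt_sq x]; exact pow_le_pow_left₀ (Real.sqrt_nonneg _) h 2

theorem gxt_eq {σ κ : ℝ} {x : V n} (h : 100 / 103 ≤ sq x) : gxt n σ κ x = gx n σ x := by
  unfold gxt gyt gx
  rw [th_0, mul_zero, sub_zero]
  rw [T4.sq_iv (by linarith), div_le_iff₀ (by linarith)]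
  linarith

theorem gxt_eq' {σ κ : ℝ} {x : V n} (h0 : 0 < sq x) (h : sq x ≤ 10 / 11) :
    gxt n σ κ x = gx n σ x - κ := by
  unfold gxt gyt gx
  rw [th_1, mul_one]
  rw [T4.sq_iv (by linarith), le_div_iff₀ (by linarith)]
  linarith

theorem gxt_le {σ κ : ℝ} (hκ : 0 ≤ κ) (x : V n) : gxt n σ κ x ≤ gx n σ x := by
  unfold gxt gyt gx
  have := mul_nonneg hκ (th_nonneg (iv x))
  linarith

theorem gy_eq2 (hn : 1 ≤ n) (σ : ℝ) (y : V n) : gy n σ y =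
    (∑ i, y i * e0 n i) * (1 - σ) - 1 + σ / 2 * (1 + sq y) := by
  have h1 : sq (y - e0 n) = sq y - 2 * (∑ i, y i * e0 n i) + 1 := by
    rw [← T4.sq_e0 hn]
    unfold sq
    rw [Finset.mul_sum, ← Finset.sum_sub_distrib, ← Finset.sum_add_distrib]
    refine Finset.sum_congr rfl fun i _ => ?_
    rw [Pi.sub_apply]; ring
  unfold gy
  rw [h1]; ring

theorem dot_le (hn : 1 ≤ n) (y : V n) : (∑ i, y i * e0 n i) ^ 2 ≤ sq y := by
  have h := Finset.sum_mul_sq_le_sq_mul_sq Finset.univ (fun i => y i) (fun i => e0 n i)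
  have h2 : ∑ i, e0 n i ^ 2 = 1 := T4.sq_e0 hn
  rw [h2, mul_one] at h
  exact h

theorem gx_far (hn : 1 ≤ n) {σ : ℝ} (hσ : 0 < σ) (hσ1 : σ ≤ 1 / 10) {x : V n}
    (h : 89 / 10 ≤ √(sq x)) : gx n σ x ≤ -(82 / 100) := by
  have h1 := sq_ge (by norm_num) h
  have h2 : sq (iv x) ≤ 127 / 10000 := by
    rw [T4.sq_iv (by nlinarith), div_le_iff₀ (by nlinarith)]
    nlinarith
  have h3 := dot_le hn (iv x)
  unfold gx
  rw [gy_eq2 hn]
  have h4 : (∑ i, iv x i * e0 n i) ≤ 113 / 1000 :=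
    abs_le_of_sq_le_sq' (by nlinarith) (by norm_num) |>.2
  have h5 : (∑ i, iv x i * e0 n i) * (1 - σ) ≤ 113 / 1000 := by
    have : (∑ i, iv x i * e0 n i) * (1 - σ) ≤ 113 / 1000 * (1 - σ) :=
      mul_le_mul_of_nonneg_right h4 (by linarith)
    linarith
  have h6 : σ / 2 * (1 + sq (iv x)) ≤ 1 / 20 * (1 + 127 / 10000) :=
    mul_le_mul (by linarith) (by linarith) (by linarith [T4.sq_nonneg' (iv x)]) (by norm_num)
  linarith

theorem gx_bd (hn : 1 ≤ n) {σ : ℝ} (hσ : 0 < σ) (hσ1 : σ ≤ 1 / 10) {x : V n}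
    (h : 88 / 100 ≤ √(sq x)) : |gx n σ x| ≤ 3 := by
  have h1 := sq_ge (by norm_num) h
  have h2 : sq (iv x) ≤ 13 / 10 := by
    rw [T4.sq_iv (by nlinarith), div_le_iff₀ (by nlinarith)]
    nlinarith
  have h0 := T4.sq_nonneg' (iv x)
  have h3 := dot_le hn (iv x)
  unfold gx
  rw [gy_eq2 hn]
  obtain ⟨h4, h4'⟩ : -(12 / 10) ≤ (∑ i, iv x i * e0 n i) ∧ (∑ i, iv x i * e0 n i) ≤ 12 / 10 :=
    abs_le_of_sq_le_sq' (by nlinarith) (by norm_num)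
  generalize (∑ i, iv x i * e0 n i) = p at *
  have h5 : p * (1 - σ) ≤ 12 / 10 := by
    have : p * (1 - σ) ≤ 12 / 10 * (1 - σ) :=
      mul_le_mul_of_nonneg_right h4' (by linarith)
    linarith
  have h5' : -(12 / 10) ≤ p * (1 - σ) := by
    have : -(12 / 10) * (1 - σ) ≤ p * (1 - σ) :=
      mul_le_mul_of_nonneg_right h4 (by linarith)
    linarith
  have h6 : σ / 2 * (1 + sq (iv x)) ≤ 1 / 20 * (1 + 13 / 10) :=
    mul_le_mul (by linarith) (by linarith) (by linarith) (by norm_num)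
  have h7 : 0 ≤ σ / 2 * (1 + sq (iv x)) := by positivity
  rw [abs_le]
  constructor <;> linarith

/-! ## The sets -/

/-- The radius. -/
def rn (n : ℕ) : ℝ := 1 / (100 * (n + 1))

theorem rn_pos : 0 < rn n := by unfold rn; positivity

theorem rn_le : rn n ≤ 1 := by
  unfold rn
  rw [div_le_one (by positivity)]
  have : (0 : ℝ) ≤ n := Nat.cast_nonneg n
  nlinarith

theorem rn_mul : (n + 1) * rn n = 1 / 100 := by
  unfold rn; field_simp

theorem ball_Ao {a b : ℝ} {x : V n} (hx : x ∈ Ao n a b) :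
    Metric.ball x (rn n) ⊆ Ao n (a - 1 / 100) (b + 1 / 100) := by
  intro y hy
  obtain ⟨h1, h2⟩ := rt_ball rn_pos.le hy
  rw [rn_mul] at h1 h2
  exact ⟨by linarith [hx.1], by linarith [hx.2]⟩

theorem Ao_mono {a b a' b' : ℝ} (ha : a' ≤ a) (hb : b ≤ b') : Ao n a b ⊆ Ao n a' b' :=
  fun _ hx => ⟨lt_of_le_of_lt ha hx.1, lt_of_lt_of_le hx.2 hb⟩

theorem Ao_sub_Ac {a b : ℝ} : Ao n a b ⊆ Ac n a b := fun _ hx => ⟨hx.1.le, hx.2.le⟩

/-- The large set. -/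
def OA (n : ℕ) : Set (V n) := Ao n (88 / 100) 17

/-- The middle set. -/
def OB (n : ℕ) : Set (V n) := Ao n (89 / 100) 16

/-- The small set. -/
def OC (n : ℕ) : Set (V n) := Ao n (9 / 10) 15

theorem OA_ne {x : V n} (hx : x ∈ Ac n (88 / 100) 17) : sq x ≠ 0 := by
  have h1 := sq_ge (by norm_num) hx.1
  intro h0
  rw [h0] at h1
  norm_num at h1

theorem gxt_cd (σ κ : ℝ) : ContDiffOn ℝ ∞ (gxt n σ κ) {x : V n | sq x ≠ 0} := by
  have h1 : ContDiffOn ℝ ∞ (iv : V n → V n) {x : V n | sq x ≠ 0} := by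
    rw [contDiffOn_pi]
    intro i
    have h3 : ContDiff ℝ ∞ fun x : V n => x i := by fun_prop
    exact h3.contDiffOn.div sq_cd.contDiffOn fun x hx => hx
  exact (gyt_cd σ κ).comp_contDiffOn h1

/-- Jets of a smooth function on a compact set. -/
theorem jets_cpt {E : Type*} [NormedAddCommGroup E] [NormedSpace ℝ E] {U C : Set E}
    (hU : IsOpen U) (hC : IsCompact C) (hCU : C ⊆ U) {f : E → ℝ} (hf : ContDiffOn ℝ ∞ f U) (K : ℕ) :
    ∃ M : ℝ, 1 ≤ M ∧ ∀ l ≤ K, ∀ x ∈ C, ‖iteratedFDeriv ℝ l f x‖ ≤ M := by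
  have h1 : ∀ l : ℕ, ∃ M : ℝ, ∀ x ∈ C, ‖iteratedFDeriv ℝ l f x‖ ≤ M := by
    intro l
    refine hC.exists_bound_of_continuousOn ?_
    have h2 := hf.continuousOn_iteratedFDerivWithin (m := l) (by exact_mod_cast le_top)
      hU.uniqueDiffOn
    exact (h2.congr fun x hx => (iteratedFDerivWithin_of_isOpen l hU hx).symm).mono hCU
  choose M hM using h1
  refine ⟨1 + ∑ l ∈ Finset.range (K + 1), |M l|, ?_, fun l hl x hx => ?_⟩
  · have : 0 ≤ ∑ l ∈ Finset.range (K + 1), |M l| := Finset.sum_nonneg fun _ _ => abs_nonneg _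
    linarith
  · have h3 := Finset.single_le_sum (f := fun l => |M l|) (fun _ _ => abs_nonneg _)
      (Finset.mem_range.2 (Nat.lt_succ_of_le hl))
    have h4 := (hM l x hx).trans (le_abs_self _)
    linarith

theorem gxt_jets (n : ℕ) (σ κ : ℝ) (K : ℕ) : ∃ Λ : ℝ, 1 ≤ Λ ∧ ∀ l ≤ K, ∀ x ∈ Ac n (88 / 100) 17,
    ‖iteratedFDeriv ℝ l (gxt n σ κ) x‖ ≤ Λ :=
  jets_cpt T4.isOpen_ne (isCompact_Ac _ _) (fun _ hx => OA_ne hx) (gxt_cd σ κ) K

theorem vol_OA (n : ℕ) : ∃ v : ℝ, 0 ≤ v ∧ volume (OA n) ≤ ENNReal.ofReal (v ^ 2) := by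
  have h1 : volume (OA n) < ⊤ :=
    lt_of_le_of_lt (measure_mono Ao_sub_Ac) (isCompact_Ac _ _).measure_lt_top
  refine ⟨√(volume (OA n)).toReal, Real.sqrt_nonneg _, ?_⟩
  rw [Real.sq_sqrt ENNReal.toReal_nonneg, ENNReal.ofReal_toReal h1.ne]

theorem norm_le_rt (x : V n) : ‖x‖ ≤ √(sq x) := by
  rw [pi_norm_le_iff_of_nonneg (Real.sqrt_nonneg _)]
  intro i
  have h1 : x i ^ 2 ≤ sq x := Finset.single_le_sum (f := fun j => x j ^ 2)
    (fun j _ => sq_nonneg _) (Finset.mem_univ i)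
  rw [Real.norm_eq_abs, ← Real.sqrt_sq_eq_abs]
  exact Real.sqrt_le_sqrt h1

theorem Solv.mono {O : Set (V n)} {s : MF n} {G : V n → ℝ} {ρ A B : ℝ} (h : Solv O s G ρ A)
    (hAB : A ≤ B) : Solv O s G ρ B := by
  intro F hF hi
  obtain ⟨w, a, b, c, d⟩ := h F hF hi
  refine ⟨w, a, b, c, d.trans (mul_le_mul_of_nonneg_right hAB (integral_nonneg fun x => ?_))⟩
  positivity

/-- The data of the quasimode, without solvability. -/
theorem qdat (n : ℕ) (σ κ : ℝ) (K : ℕ) : ∃ Λ v : ℝ, 1 ≤ Λ ∧ 0 ≤ v ∧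
    volume (OA n) ≤ ENNReal.ofReal (v ^ 2) ∧
    ∀ {K' : ℕ} {ε : ℝ} {s₁ s₂ : MF n} {G : Set (V n)}, K ≤ K' → Nrm K' ε s₁ s₂ G →
    ∀ {ρ : ℝ}, 1 ≤ ρ → (∀ O : Set (V n), IsOpen O → O ⊆ Ao n (4 / 5) 24 →
      Solv O s₁ (gxt n σ κ) ρ 1 ∧ Solv O s₂ (gxt n σ κ) ρ 1) →
    QDat K ε (OA n) (OB n) (OC n) (rn n) v 30 s₁ s₂ (gxt n σ κ) Λ ρ := by
  obtain ⟨Λ, hΛ, hj⟩ := gxt_jets n σ κ K
  obtain ⟨v, hv, hvol⟩ := vol_OA n
  refine ⟨Λ, v, hΛ, hv, hvol, ?_⟩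
  intro K' ε s₁ s₂ G hK hN ρ hρ hS
  have hA : OA n ⊆ Ao n (4 / 5) 24 := Ao_mono (by norm_num) (by norm_num)
  have hB : OB n ⊆ Ao n (4 / 5) 24 := Ao_mono (by norm_num) (by norm_num)
  have key : ∀ s : MF n, SmM s →
      (∀ i j, Cl K' ε (fun x => s x i j - (1 : Matrix (Fin n) (Fin n) ℝ) i j)) →
      Ns (OA n) K ε s := by
    intro s hs hc i j
    exact ⟨((hs i j).sub contDiff_const).contDiffOn, fun l hl x _ => hc i j l (hl.trans hK) x⟩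
  exact
  { oO := isOpen_Ao _ _
    oO1 := isOpen_Ao _ _
    oO2 := isOpen_Ao _ _
    r0 := rn_pos
    r1 := rn_le
    sub1 := fun x hx => (ball_Ao hx).trans (Ao_mono (by norm_num) (by norm_num))
    sub2 := fun x hx => (ball_Ao hx).trans (Ao_mono (by norm_num) (by norm_num))
    v0 := hv
    vol := hvol
    d2 := by norm_num
    diam := fun x hx y hy => by
      have h1 := (norm_le_rt x).trans hx.2.le
      have h2 := (norm_le_rt y).trans hy.2.le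
      linarith [norm_sub_le x y]
    n1 := key s₁ hN.sm₁ hN.cl₁
    n2 := key s₂ hN.sm₂ hN.cl₂
    y1 := hN.sy₁
    y2 := hN.sy₂
    smG := (gxt_cd σ κ).mono fun x hx => OA_ne (Ao_sub_Ac hx)
    Λ1 := hΛ
    dG := fun i _ hi x hx => hj i hi x (Ao_sub_Ac hx)
    ρ1 := hρ
    v11 := (hS _ (isOpen_Ao _ _) hA).1
    v21 := (hS _ (isOpen_Ao _ _) hA).2
    v12 := (hS _ (isOpen_Ao _ _) hB).1
    v22 := (hS _ (isOpen_Ao _ _) hB).2 }

end Vale.Agent.P088.HY.S3
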