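import Vale.Agent.P088.R2.H673.P4.PC

/-!
# P088, stage 3, P4: the cut-off near the diagonal
-/

open MeasureTheory Set Filter
open scoped ContDiff Matrix Topology

noncomputable section

namespace Vale.Agent.P088.HY.S3

open Vale.Agent.P088.LR Vale.Agent.P088.HY.QM
open Vale.Agent.P088.HY.T3 (e0 iv Eb Ac Ao Nrm isOpen_Ao isCompact_Ac isClosed_Ac rt_ball cont_rt)
open Vale.Agent.P088.HY.T4 (gy gx Lvl)

variable {n : ℕ}

/-- Jets of a test function. -/
theorem csJ {E : Type*} [NormedAddCommGroup E] [NormedSpace ℝ E] {f : E → ℝ}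
    (hf : ContDiff ℝ ∞ f) (hc : HasCompactSupport f) (K : ℕ) :
    ∃ M : ℝ, 1 ≤ M ∧ ∀ l ≤ K, ∀ x, ‖iteratedFDeriv ℝ l f x‖ ≤ M := by
  have h1 : ∀ l : ℕ, ∃ M : ℝ, ∀ x, ‖iteratedFDeriv ℝ l f x‖ ≤ M := fun l =>
    (hc.iteratedFDeriv l).exists_bound_of_continuous
      (hf.continuous_iteratedFDeriv (by exact_mod_cast le_top))
  choose M hM using h1
  refine ⟨1 + ∑ l ∈ Finset.range (K + 1), |M l|, ?_, fun l hl x => ?_⟩
  · have : 0 ≤ ∑ l ∈ Finset.range (K + 1), |M l| := Finset.sum_nonneg fun _ _ => abs_nonneg _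
    linarith
  · have h3 := Finset.single_le_sum (f := fun l => |M l|) (fun _ _ => abs_nonneg _)
      (Finset.mem_range.2 (Nat.lt_succ_of_le hl))
    have h4 := (hM l x).trans (le_abs_self _)
    linarith

/-- Jets of a composition with a linear map. -/
theorem jet_clm {E F : Type*} [NormedAddCommGroup E] [NormedSpace ℝ E] [NormedAddCommGroup F]
    [NormedSpace ℝ F] {f : F → ℝ} (hf : ContDiff ℝ ∞ f) (L : E →L[ℝ] F) {c : ℝ} (hL : ‖L‖ ≤ c)
    (l : ℕ) (z : E) : ‖iteratedFDeriv ℝ l (fun z => f (L z)) z‖ ≤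
      ‖iteratedFDeriv ℝ l f (L z)‖ * c ^ l := by
  have e : (fun z => f (L z)) = f ∘ L := rfl
  rw [e, L.iteratedFDeriv_comp_right hf z (by exact_mod_cast le_top)]
  refine ((iteratedFDeriv ℝ l f (L z)).norm_compContinuousLinearMap_le _).trans ?_
  rw [Finset.prod_const, Finset.card_univ, Fintype.card_fin]
  exact mul_le_mul_of_nonneg_left (pow_le_pow_left₀ (norm_nonneg _) hL l) (norm_nonneg _)

/-! ## The cut-off in space -/

/-- The cut-off in space. -/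
def omx (x : V n) : ℝ := Real.smoothTransition ((sq x - 8281 / 10000) * (10000 / 555)) *
  Real.smoothTransition ((841 / 4 - sq x) * (4 / 57))

theorem omx_cd : ContDiff ℝ ∞ (omx : V n → ℝ) :=
  (Real.smoothTransition.contDiff.comp ((sq_cd.sub contDiff_const).mul contDiff_const)).mul
    (Real.smoothTransition.contDiff.comp ((contDiff_const.sub sq_cd).mul contDiff_const))

theorem omx_1 {x : V n} (hx : x ∈ Ac n (94 / 100) 14) : omx x = 1 := by
  have h1 := sq_ge (by norm_num) hx.1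
  have h2 := sq_le hx.2
  unfold omx
  rw [Real.smoothTransition.one_of_one_le (by nlinarith),
    Real.smoothTransition.one_of_one_le (by nlinarith), one_mul]

theorem omx_0 {x : V n} (hx : omx x ≠ 0) : x ∈ Ac n (91 / 100) (29 / 2) := by
  unfold omx at hx
  constructor
  · by_contra h
    have h1 := sq_le (not_le.1 h).le
    exact hx (by rw [Real.smoothTransition.zero_of_nonpos (by nlinarith), zero_mul])
  · by_contra h
    have h1 := sq_ge (by norm_num) (not_le.1 h).le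
    exact hx (by rw [Real.smoothTransition.zero_of_nonpos (x := (841 / 4 - sq x) * (4 / 57))
      (by nlinarith), mul_zero])

theorem omx_nonneg (x : V n) : 0 ≤ omx x :=
  mul_nonneg (Real.smoothTransition.nonneg _) (Real.smoothTransition.nonneg _)

theorem omx_le (x : V n) : omx x ≤ 1 :=
  mul_le_one₀ (Real.smoothTransition.le_one _) (Real.smoothTransition.nonneg _)
    (Real.smoothTransition.le_one _)

theorem omx_ts : tsupport (omx : V n → ℝ) ⊆ Ac n (91 / 100) (29 / 2) :=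
  closure_minimal (fun _ hx => omx_0 hx) (isClosed_Ac _ _)

theorem omx_cs : HasCompactSupport (omx : V n → ℝ) :=
  (isCompact_Ac _ _).of_isClosed_subset (isClosed_tsupport _) omx_ts

/-! ## The cut-off near the diagonal -/

/-- The bump. -/
def om0 (n : ℕ) : ContDiffBump (0 : V n) := ⟨1 / 2, 1, by norm_num, by norm_num⟩

theorem om0_cd : ContDiff ℝ ∞ (om0 n : V n → ℝ) := (om0 n).contDiff

/-- `z ↦ t⁻¹ (z.1 - z.2)`. -/
def Lt (n : ℕ) (t : ℝ) : VV n →L[ℝ] V n :=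
  t⁻¹ • (ContinuousLinearMap.fst ℝ (V n) (V n) - ContinuousLinearMap.snd ℝ (V n) (V n))

theorem Lt_apply (t : ℝ) (z : VV n) : Lt n t z = t⁻¹ • (z.1 - z.2) := rfl

theorem Lt_norm {t : ℝ} (ht : 0 < t) : ‖Lt n t‖ ≤ 2 / t := by
  refine ContinuousLinearMap.opNorm_le_bound _ (by positivity) fun z => ?_
  rw [Lt_apply, norm_smul, Real.norm_eq_abs, abs_of_pos (inv_pos.2 ht)]
  have h1 : ‖z.1 - z.2‖ ≤ 2 * ‖z‖ := by
    have h2 := norm_fst_le z
    have h3 := norm_snd_le z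
    linarith [norm_sub_le z.1 z.2]
  calc t⁻¹ * ‖z.1 - z.2‖ ≤ t⁻¹ * (2 * ‖z‖) := mul_le_mul_of_nonneg_left h1 (inv_pos.2 ht).le
    _ = 2 / t * ‖z‖ := by field_simp

/-- The cut-off near the diagonal. -/
def eta (n : ℕ) (t : ℝ) (z : VV n) : ℝ := om0 n (Lt n t z) * (omx z.1 * omx z.2)

theorem eta_cd (t : ℝ) : ContDiff ℝ ∞ (eta n t) :=
  (om0_cd.comp (Lt n t).contDiff).mul ((omx_cd.comp contDiff_fst).mul (omx_cd.comp contDiff_snd))

theorem eta_nr {t : ℝ} (ht : 0 < t) {z : VV n} (hz : eta n t z ≠ 0) : ‖z.1 - z.2‖ < t := by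
  have h1 : (om0 n) (Lt n t z) ≠ 0 := fun h => hz (by unfold eta; rw [h, zero_mul])
  have h2 : Lt n t z ∈ Function.support (om0 n) := h1
  rw [(om0 n).support_eq, mem_ball_zero_iff, Lt_apply, norm_smul, Real.norm_eq_abs,
    abs_of_pos (inv_pos.2 ht)] at h2
  have h3 : t⁻¹ * ‖z.1 - z.2‖ < 1 := h2
  rwa [inv_mul_lt_iff₀ ht, mul_one] at h3

theorem eta_sp {t : ℝ} {z : VV n} (hz : eta n t z ≠ 0) :
    z.1 ∈ Ac n (91 / 100) (29 / 2) ∧ z.2 ∈ Ac n (91 / 100) (29 / 2) := by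
  have h1 : omx z.1 * omx z.2 ≠ 0 := fun h => hz (by unfold eta; rw [h, mul_zero])
  exact ⟨omx_0 (left_ne_zero_of_mul h1), omx_0 (right_ne_zero_of_mul h1)⟩

theorem eta_ts (t : ℝ) : tsupport (eta n t) ⊆
    Ac n (91 / 100) (29 / 2) ×ˢ Ac n (91 / 100) (29 / 2) :=
  closure_minimal (fun _ hz => eta_sp hz) ((isClosed_Ac _ _).prod (isClosed_Ac _ _))

theorem eta_cs (t : ℝ) : HasCompactSupport (eta n t) :=
  ((isCompact_Ac _ _).prod (isCompact_Ac _ _)).of_isClosed_subset (isClosed_tsupport _) (eta_ts t)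

theorem eta_1 {t : ℝ} (ht : 0 < t) {z : VV n} (h : ‖z.1 - z.2‖ ≤ t / 2)
    (h1 : z.1 ∈ Ac n (94 / 100) 14) (h2 : z.2 ∈ Ac n (94 / 100) 14) : eta n t z = 1 := by
  unfold eta
  rw [omx_1 h1, omx_1 h2, one_mul, mul_one]
  refine (om0 n).one_of_mem_closedBall ?_
  rw [mem_closedBall_zero_iff, Lt_apply, norm_smul, Real.norm_eq_abs, abs_of_pos (inv_pos.2 ht)]
  show t⁻¹ * ‖z.1 - z.2‖ ≤ 1 / 2
  rw [inv_mul_le_iff₀ ht]
  linarith

theorem Ac_OC : Ac n (91 / 100) (29 / 2) ⊆ OC n := fun x hx =>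
  ⟨by linarith [hx.1], by linarith [hx.2]⟩

theorem eta_dat (n : ℕ) : ∃ C : ℝ, 1 ≤ C ∧ ∀ t : ℝ, 0 < t → t ≤ 1 →
    EDat (OC n) t (eta n t) (C / t ^ 2) := by
  obtain ⟨M0, hM0, H0⟩ := csJ (om0_cd (n := n)) (om0 n).hasCompactSupport 2
  obtain ⟨M1, hM1, H1⟩ := csJ (omx_cd (n := n)) omx_cs 2
  refine ⟨2 ^ 2 * (4 * M0 * (2 ^ 2 * (M1 * M1))), ?_, fun t ht ht1 => ?_⟩
  · have h1 : 1 ≤ M1 * M1 := one_le_mul_of_one_le_of_one_le hM1 hM1
    have h2 : 1 ≤ M0 * (M1 * M1) := one_le_mul_of_one_le_of_one_le hM0 h1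
    linarith
  have j1 : Jl (univ : Set (VV n)) 2 (fun _ => M0 * (2 / t) ^ 2) (fun z => om0 n (Lt n t z)) := by
    refine ⟨(om0_cd.comp (Lt n t).contDiff).contDiffOn, fun l hl z _ => ?_⟩
    refine (jet_clm om0_cd (Lt n t) (Lt_norm ht) l z).trans ?_
    have h2 : 1 ≤ 2 / t := by rw [le_div_iff₀ ht]; linarith
    exact mul_le_mul (H0 l hl _) (pow_le_pow_right₀ h2 hl) (by positivity) (by linarith)
  have j2 : Jl (univ : Set (V n)) 2 (fun _ => M1) (omx : V n → ℝ) :=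
    ⟨omx_cd.contDiffOn, fun l hl x _ => H1 l hl x⟩
  have j3 : Jl (univ : Set (VV n)) 2 (fun _ => M1) (fun z : VV n => omx z.1) := by
    have := Jl.fst isOpen_univ j2
    rwa [univ_prod_univ] at this
  have j4 : Jl (univ : Set (VV n)) 2 (fun _ => M1) (fun z : VV n => omx z.2) := by
    have := Jl.snd isOpen_univ j2
    rwa [univ_prod_univ] at this
  have j5 := Jl.mul isOpen_univ j1 (Jl.mul isOpen_univ j3 j4)
  exact
  { sm := eta_cd t
    ts := (eta_ts t).trans (prod_mono Ac_OC Ac_OC)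
    jb := fun l hl z => (j5.2 l hl z (mem_univ _)).trans (le_of_eq (by field_simp; ring))
    le1 := fun z => by
      unfold eta
      rw [abs_mul, abs_mul, abs_of_nonneg (om0 n).nonneg, abs_of_nonneg (omx_nonneg _),
        abs_of_nonneg (omx_nonneg _)]
      exact mul_le_one₀ (om0 n).le_one (mul_nonneg (omx_nonneg _) (omx_nonneg _))
        (mul_le_one₀ (omx_le _) (omx_nonneg _) (omx_le _))
    nr := fun z hz => (eta_nr ht hz).le }

theorem sq_ball {t : ℝ} (htn : (n + 1) * (2 * t) ≤ 1 / 100) {x y : V n} (ht : 0 < t)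
    (h : ‖x - y‖ ≤ t) : √(sq y) - 1 / 100 ≤ √(sq x) ∧ √(sq x) ≤ √(sq y) + 1 / 100 := by
  have h1 : x ∈ Metric.ball y (2 * t) := by rw [mem_ball_iff_norm]; linarith
  obtain ⟨h2, h3⟩ := rt_ball (by positivity) h1
  exact ⟨by linarith, by linarith⟩

/-- The support of the derivative of the cut-off. -/
theorem eta_fd {t : ℝ} (ht : 0 < t) (htn : (n + 1) * (2 * t) ≤ 1 / 100) {z : VV n}
    (hz : z ∈ tsupport (fderiv ℝ (eta n t))) :
    t / 2 ≤ ‖z.1 - z.2‖ ∨ √(sq z.1) ≤ 95 / 100 ∨ 139 / 10 ≤ √(sq z.1) := by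
  have hts : z ∈ tsupport (eta n t) := tsupport_fderiv_subset ℝ hz
  have hcl : IsClosed {z : VV n | ‖z.1 - z.2‖ ≤ t} := by
    refine isClosed_le ?_ continuous_const
    fun_prop
  have hn : ‖z.1 - z.2‖ ≤ t := closure_minimal (fun z hz => (eta_nr ht hz).le) hcl hts
  by_contra hcon
  push Not at hcon
  obtain ⟨h1, h2, h3⟩ := hcon
  have hn' : ‖z.2 - z.1‖ ≤ t := by rw [norm_sub_rev]; exact hn
  obtain ⟨h4, h5⟩ := sq_ball htn ht hn'
  have hU : IsOpen {z : VV n | ‖z.1 - z.2‖ < t / 2 ∧ z.1 ∈ Ao n (94 / 100) 14 ∧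
      z.2 ∈ Ao n (94 / 100) 14} := by
    have h7 : Continuous fun z : VV n => ‖z.1 - z.2‖ := by fun_prop
    exact (isOpen_lt h7 continuous_const).inter (((isOpen_Ao _ _).preimage continuous_fst).inter
      ((isOpen_Ao _ _).preimage continuous_snd))
  have hmem : z ∈ {z : VV n | ‖z.1 - z.2‖ < t / 2 ∧ z.1 ∈ Ao n (94 / 100) 14 ∧
      z.2 ∈ Ao n (94 / 100) 14} :=
    ⟨h1, ⟨by linarith, by linarith⟩, ⟨by linarith, by linarith⟩⟩
  have h6 : eta n t =ᶠ[𝓝 z] fun _ => 1 :=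
    eventuallyEq_of_mem (hU.mem_nhds hmem) fun w hw =>
      eta_1 ht hw.1.le (Ao_sub_Ac hw.2.1) (Ao_sub_Ac hw.2.2)
  refine absurd hz ?_
  rw [notMem_tsupport_iff_eventuallyEq]
  filter_upwards [h6.eventuallyEq_nhds] with w hw
  rw [hw.fderiv_eq]; simp

end Vale.Agent.P088.HY.S3
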