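import Vale.Agent.P088.R2.H673.P4.PD

/-!
# P088, stage 3, P4: the cut-off in depth, the data of the tensor
-/

open MeasureTheory Set Filter
open scoped ContDiff Matrix Topology

noncomputable section

namespace Vale.Agent.P088.HY.S3

open Vale.Agent.P088.LR Vale.Agent.P088.HY.QM
open Vale.Agent.P088.HY.T3 (e0 iv Eb Ac Ao Nrm isOpen_Ao isCompact_Ac isClosed_Ac rt_ball cont_rt)
open Vale.Agent.P088.HY.T4 (gy gx Lvl SelD kk)

variable {n : ℕ}

theorem st_cd : ContDiff ℝ ∞ Real.smoothTransition := Real.smoothTransition.contDiff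

/-- Jets of the smooth step. -/
theorem stJ (K : ℕ) : ∃ M : ℝ, 1 ≤ M ∧ ∀ l ≤ K, ∀ x : ℝ,
    ‖iteratedFDeriv ℝ l Real.smoothTransition x‖ ≤ M := by
  obtain ⟨M, hM, H⟩ := jets_cpt isOpen_univ (isCompact_Icc (a := (-1 : ℝ)) (b := 2))
    (subset_univ _) st_cd.contDiffOn K
  refine ⟨M, hM, fun l hl x => ?_⟩
  have hc : ∀ c : ℝ, |c| ≤ 1 → (Real.smoothTransition =ᶠ[𝓝 x] fun _ => c) →
      ‖iteratedFDeriv ℝ l Real.smoothTransition x‖ ≤ M := by
    intro c hc h
    rw [(Filter.EventuallyEq.iteratedFDeriv ℝ h l).eq_of_nhds]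
    rcases Nat.eq_zero_or_pos l with rfl | hl'
    · rw [norm_iteratedFDeriv_zero, Real.norm_eq_abs]; linarith
    · rw [iteratedFDeriv_const_of_ne (Nat.pos_iff_ne_zero.mp hl')]
      simp only [Pi.zero_apply, norm_zero]
      linarith
  rcases lt_or_ge x 0 with h | h
  · exact hc 0 (by simp) (eventuallyEq_of_mem (isOpen_Iio.mem_nhds h) fun y hy =>
      Real.smoothTransition.zero_of_nonpos (le_of_lt hy))
  rcases lt_or_ge 1 x with h' | h'
  · exact hc 1 (by simp) (eventuallyEq_of_mem (isOpen_Ioi.mem_nhds h') fun y hy =>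
      Real.smoothTransition.one_of_one_le (le_of_lt hy))
  exact H l hl x ⟨by linarith, by linarith⟩

/-- The cut-off in depth. -/
def chi (G : V n → ℝ) (R Gs l : ℝ) (x : V n) : ℝ :=
  Real.smoothTransition ((R * (G x - Gs) + l / 2) / (l / 4)) ^ 2

theorem chi_sc {G : V n → ℝ} {R Gs l : ℝ} (hl : 0 < l) {x : V n} (hx : chi G R Gs l x ≠ 0) :
    -(l / 2) ≤ R * (G x - Gs) := by
  by_contra h
  refine hx ?_
  unfold chi
  rw [Real.smoothTransition.zero_of_nonpos, zero_pow two_ne_zero]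
  exact div_nonpos_of_nonpos_of_nonneg (by linarith [not_le.1 h]) (by positivity)

theorem chi_le {G : V n → ℝ} {R Gs l : ℝ} (x : V n) : 0 ≤ chi G R Gs l x ∧ chi G R Gs l x ≤ 1 :=
  ⟨by unfold chi; positivity, pow_le_one₀ (Real.smoothTransition.nonneg _)
    (Real.smoothTransition.le_one _)⟩

theorem chiJ (n K : ℕ) : ∃ C : ℝ, 1 ≤ C ∧ ∀ {O : Set (V n)}, IsOpen O → ∀ {G : V n → ℝ},
    ContDiffOn ℝ ∞ G O → ∀ {Λ R Gs l : ℝ}, 1 ≤ Λ → 1 ≤ R → 1 ≤ l →
    (∀ i, 1 ≤ i → i ≤ K → ∀ x ∈ O, ‖iteratedFDeriv ℝ i G x‖ ≤ Λ) →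
    Jl O K (fun _ => C * (4 * R * Λ) ^ (2 * K)) (chi G R Gs l) := by
  obtain ⟨M, hM, H⟩ := stJ K
  have hM1 : 1 ≤ M * M := one_le_mul_of_one_le_of_one_le hM hM
  have hfac : (1 : ℝ) ≤ K.factorial := by exact_mod_cast Nat.one_le_iff_ne_zero.2 K.factorial_ne_zero
  refine ⟨2 ^ K * ((K.factorial * M) * (K.factorial * M)), ?_, ?_⟩
  · have h1 : 1 ≤ K.factorial * M := one_le_mul_of_one_le_of_one_le hfac hM
    have h2 : (1 : ℝ) ≤ 2 ^ K := one_le_pow₀ (by norm_num)
    exact one_le_mul_of_one_le_of_one_le h2 (one_le_mul_of_one_le_of_one_le h1 h1)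
  intro O hO G hG Λ R Gs l hΛ hR hl hD
  set D := 4 * R * Λ with hDd
  have hD1 : 1 ≤ D := by nlinarith
  set f : V n → ℝ := fun x => (R * (G x - Gs) + l / 2) / (l / 4) with hf
  have hfs : ContDiffOn ℝ ∞ f O := by
    have : ContDiffOn ℝ ∞ (fun x => (R * (G x - Gs) + l / 2) * (l / 4)⁻¹) O :=
      ((contDiffOn_const.mul (hG.sub contDiffOn_const)).add contDiffOn_const).mul contDiffOn_const
    exact this
  have hfd : ∀ i, 1 ≤ i → i ≤ K → ∀ x ∈ O, ‖iteratedFDeriv ℝ i f x‖ ≤ D ^ i := by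
    intro i hi hiK x hx
    have hcd : ContDiffAt ℝ i G x :=
      (hG.contDiffAt (hO.mem_nhds hx)).of_le (by exact_mod_cast le_top)
    have e : f = (4 * R / l) • G + fun _ => (l / 2 - R * Gs) / (l / 4) := by
      funext x
      simp only [hf, Pi.add_apply, Pi.smul_apply, smul_eq_mul]
      field_simp
      ring
    have hcs : ContDiffAt ℝ i ((4 * R / l) • G) x := ContDiffAt.const_smul (4 * R / l) hcd
    rw [e, iteratedFDeriv_add_apply hcs contDiffAt_const,
      iteratedFDeriv_const_smul_apply hcd, iteratedFDeriv_const_of_ne (by omega)]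
    simp only [Pi.zero_apply, add_zero]
    rw [norm_smul, Real.norm_eq_abs, abs_of_nonneg (by positivity)]
    have h1 : 4 * R / l ≤ 4 * R := div_le_self (by positivity) hl
    calc 4 * R / l * ‖iteratedFDeriv ℝ i G x‖ ≤ 4 * R * Λ :=
          mul_le_mul h1 (hD i hi hiK x hx) (norm_nonneg _) (by positivity)
      _ = D ^ 1 := by rw [pow_one]
      _ ≤ D ^ i := pow_le_pow_right₀ hD1 hi
  have hJ : Jl O K (fun _ => K.factorial * M * D ^ K)
      (fun x => Real.smoothTransition (f x)) := by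
    refine ⟨st_cd.comp_contDiffOn hfs, fun m hm x hx => ?_⟩
    have key := norm_iteratedFDerivWithin_comp_le st_cd.contDiffOn hfs (n := m) (by exact_mod_cast le_top)
      uniqueDiffOn_univ hO.uniqueDiffOn (mapsTo_univ f O) hx (C := M) (D := D)
      (fun i hi => by rw [iteratedFDerivWithin_univ]; exact H i (hi.trans hm) _)
      (fun i hi him => by
        rw [iteratedFDerivWithin_of_isOpen i hO hx]; exact hfd i hi (him.trans hm) x hx)
    rw [iteratedFDerivWithin_of_isOpen m hO hx] at key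
    refine key.trans ?_
    have h1 : (m.factorial : ℝ) ≤ K.factorial := by exact_mod_cast Nat.factorial_le hm
    have h2 : D ^ m ≤ D ^ K := pow_le_pow_right₀ hD1 hm
    exact mul_le_mul (mul_le_mul_of_nonneg_right h1 (by linarith)) h2 (by positivity)
      (by positivity)
  have hJ2 := Jl.mul hO hJ hJ
  refine (hJ2.congr hO fun x _ => ?_).mono fun x _ => le_of_eq ?_
  · unfold chi; ring
  · rw [pow_mul']; ring

theorem un_R {N R Gs : ℝ} (hN : 0 < N) (G : V n → ℝ) (x : V n) :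
    un N (N * R) Gs G x = R * (G x - Gs) := by
  unfold un; field_simp

/-- The data of the tensor. -/
theorem hdat {σ κ N q C s R kap Gs δ l b ε : ℝ} {J K K' : ℕ} {s₁ s₂ : MF n} {G : Set (V n)}
    {ps : V n} (hN : 0 < N) (hR : 1 ≤ R) (hq : 0 ≤ q) (hC : 0 ≤ C) (hl : 0 < l)
    (hNrm : Nrm K' ε s₁ s₂ G) (hS : SelD s₁ s₂ σ N q J C s R kap Gs δ ps) (hKJ : K ≤ J)
    (hjc : Jl (OA n) K (fun _ => b) (chi (gxt n σ κ) R Gs l)) :
    HDat K (OA n) (fun x => s₂ x - s₁ x) (chi (gxt n σ κ) R Gs l) (gxt n σ κ) (N * R) Gs N l q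
      (C * R ^ C * kap ^ s * δ) b := by
  have hk1 := hS.k1
  have hδ0 := hS.δ0
  have hB : 0 ≤ C * R ^ C * kap ^ s * δ := by positivity
  refine
  { hN := hN
    hq := hq
    hB := hB
    sy := fun x => (hNrm.sy₂ x).sub (hNrm.sy₁ x)
    jh := fun i j => ⟨((hNrm.sm₂ i j).sub (hNrm.sm₁ i j)).contDiffOn, fun m hm x hx => ?_⟩
    jc := hjc
    sc := fun x _ hx => by rw [un_R hN]; exact chi_sc hl hx }
  show ‖iteratedFDeriv ℝ m (fun x => s₂ x i j - s₁ x i j) x‖ ≤ C * R ^ C * kap ^ s * δ *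
    Real.exp (-(N * un N (N * R) Gs (gxt n σ κ) x) - q * |un N (N * R) Gs (gxt n σ κ) x|)
  rw [un_R hN]
  by_cases hx1 : x ∈ Eb (0 : V n) 1
  · have h1 : (fun x => s₂ x i j - s₁ x i j) =ᶠ[𝓝 x] fun _ => 0 := by
      refine eventuallyEq_of_mem ((T3.isOpen_Eb _ _).mem_nhds hx1) fun y hy => ?_
      have h2 : y ∈ Eb (0 : V n) 24 := by
        have h3 : sq (y - 0) < 1 ^ 2 := hy
        show sq (y - 0) < 24 ^ 2
        linarith
      show s₂ y i j - s₁ y i j = 0
      rw [hNrm.eq y ⟨hNrm.b1 hy, h2⟩, sub_self]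
    rw [(Filter.EventuallyEq.iteratedFDeriv ℝ h1 m).eq_of_nhds]
    have h2 : iteratedFDeriv ℝ m (fun _ : V n => (0 : ℝ)) x = 0 := by
      have := iteratedFDeriv_fun_zero (𝕜 := ℝ) (E := V n) (F := ℝ) (n := m)
      exact congrFun this x
    rw [h2, norm_zero]
    positivity
  · have h0 : 1 ≤ sq x := by
      have : ¬ sq (x - 0) < 1 ^ 2 := hx1
      rw [sub_zero] at this
      linarith [not_lt.1 this]
    rw [gxt_eq (by linarith)]
    have hxA : x ∈ Ac n (4 / 5) 22 := ⟨by linarith [hx.1], by linarith [hx.2]⟩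
    have h1 := hS.jets i j m (hm.trans hKJ) x hxA
    have e1 : Real.exp (-(N * (R * (gx n σ x - Gs))) - q * |R * (gx n σ x - Gs)|) =
        Real.exp (-(q * R * |gx n σ x - Gs|)) / Real.exp (N * R * (gx n σ x - Gs)) := by
      rw [← Real.exp_sub, abs_mul, abs_of_nonneg (by linarith : 0 ≤ R)]
      congr 1; ring
    rw [e1, ← mul_div_assoc, le_div_iff₀ (Real.exp_pos _)]
    exact h1

end Vale.Agent.P088.HY.S3
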