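import Vale.Agent.P088.R2.H673.P4.PA
import Vale.Agent.P088.R2.H673.P4.PE
import Vale.Agent.P088.R2.H673.S3.SG

/-!
# P088, stage 3, P4: the weighted size of the error
-/

open MeasureTheory Set Filter
open scoped ContDiff Matrix Topology

noncomputable section

namespace Vale.Agent.P088.HY.S3

open Vale.Agent.P088.LR Vale.Agent.P088.HY.QM
open Vale.Agent.P088.HY.T3 (e0 iv Eb Ac Ao Nrm isOpen_Ao isCompact_Ac isClosed_Ac rt_ball cont_rt)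
open Vale.Agent.P088.HY.T4 (gy gx Lvl SelD Zq Oc WB)

variable {n : ℕ}

/-- What is used of the quasimode. -/
structure KP (n : ℕ) (σ κ N q l t R Gs : ℝ) (s₁ s₂ : MF n) (A1 A2 A0 : ℝ) (K0 : VV n → ℝ) :
    Prop where
  sm : ContDiff ℝ ∞ K0
  k0 : ∀ z ∉ tsupport (eta n t), K0 z = 0
  kL : ∀ z ∉ tsupport (fderiv ℝ (eta n t)),
    Lx s₁ K0 z = eta n t z * Rx s₁ (kq s₁ (fun x => s₂ x - s₁ x) (chi (gxt n σ κ) R Gs l)
      (gxt n σ κ) (N * R) Gs) z ∧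
    Ly s₂ K0 z = eta n t z * Ry s₂ (kq s₁ (fun x => s₂ x - s₁ x) (chi (gxt n σ κ) R Gs l)
      (gxt n σ κ) (N * R) Gs) z
  kF : ∀ z ∈ OC n ×ˢ OC n, ‖z.1 - z.2‖ ≤ t →
    FC (un N (N * R) Gs (gxt n σ κ)) N q A1 A2 (PS (kq s₁ (fun x => s₂ x - s₁ x)
      (chi (gxt n σ κ) R Gs l) (gxt n σ κ) (N * R) Gs) t) (eta n t) (fun z => Lx s₁ K0 z) z ∧
    FC (un N (N * R) Gs (gxt n σ κ)) N q A1 A2 (PS (kq s₁ (fun x => s₂ x - s₁ x)
      (chi (gxt n σ κ) R Gs l) (gxt n σ κ) (N * R) Gs) t) (eta n t) (fun z => Ly s₂ K0 z) z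
  kN : ∀ z, (Lx s₁ K0 z ≠ 0 ∨ Ly s₂ K0 z ≠ 0) → z ∈ OC n ×ˢ OC n ∧ ‖z.1 - z.2‖ ≤ t
  kB : ∀ z ∈ OC n ×ˢ OC n, ‖z.1 - z.2‖ ≤ t →
    |K0 z| ≤ A0 * Real.exp (N * un N (N * R) Gs (gxt n σ κ) z.1)

theorem kq_ne {s h : MF n} {χ G : V n → ℝ} {ρ Gs : ℝ} {x : V n} {i j : Fin n}
    (hk : kq s h χ G ρ Gs x i j ≠ 0) : χ x ≠ 0 ∧ h x ≠ 0 := by
  unfold kq at hk
  rw [K2_apply] at hk
  constructor
  · intro h0; exact hk (by rw [h0]; simp)
  · intro h0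
    refine hk ?_
    have : tfp s h x i j = 0 := by
      unfold tfp ipm
      simp [h0]
    rw [this]; simp

theorem sq_le_norm (x : V n) : sq x ≤ n * ‖x‖ ^ 2 := by
  unfold sq
  calc ∑ j, x j ^ 2 ≤ ∑ _j : Fin n, ‖x‖ ^ 2 := Finset.sum_le_sum fun j _ => by
        rw [← sq_abs, ← Real.norm_eq_abs]
        exact pow_le_pow_left₀ (norm_nonneg _) (norm_le_pi_norm x j) 2
    _ = n * ‖x‖ ^ 2 := by rw [Finset.sum_const, Finset.card_univ, Fintype.card_fin, nsmul_eq_mul]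

/-- The tensor vanishes in the unit ball. -/
theorem h_ne {K : ℕ} {ε : ℝ} {s₁ s₂ : MF n} {G : Set (V n)} (hN : Nrm K ε s₁ s₂ G) {x : V n}
    (h : s₂ x - s₁ x ≠ 0) : 1 ≤ √(sq x) := by
  by_contra hc
  refine h ?_
  have h1 : sq x < 1 := by
    rw [← rt_sq x]
    have := Real.sqrt_nonneg (sq x)
    nlinarith [not_le.1 hc]
  have h2 : x ∈ Eb (0 : V n) 1 := by show sq (x - 0) < 1 ^ 2; rw [sub_zero]; linarith
  have h3 : x ∈ Eb (0 : V n) 24 := by show sq (x - 0) < 24 ^ 2; rw [sub_zero]; linarith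
  rw [hN.eq x ⟨hN.b1 h2, h3⟩, sub_self]

section

variable {σ κ N q l t R Gs A1 A2 A0 Λ Λ' a b ν c C₁ kap ε v : ℝ} {s₁ s₂ : MF n} {K K' : ℕ}
  {K0 : VV n → ℝ} {G : Set (V n)}

/-- From the form `FC` to the form `FD`. -/
theorem FD_of (hn : 1 ≤ n) (hσ : 0 < σ) (hσ1 : σ ≤ 1 / 10) (hκ : 0 ≤ κ) (hN : 0 < N) (hR : 1 ≤ R)
    (hl : 1 ≤ l) (hlR : l ≤ R) (hGs : -(1 / 50) ≤ Gs) (hGs0 : Gs ≤ 0) (ht : 0 < t)
    (htn : (n + 1) * (2 * t) ≤ 1 / 100) (htr : 2 * t ≤ rn n)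
    (hNrm : Nrm K' ε s₁ s₂ G) (hA2 : 0 ≤ A2)
    (hlip : ∀ x ∈ OC n, ∀ w ∈ Metric.ball x (2 * t),
      |un N (N * R) Gs (gxt n σ κ) w - un N (N * R) Gs (gxt n σ κ) x| ≤ l / 4)
    {F : VV n → ℝ} {z : VV n} (hz : z ∈ OC n ×ˢ OC n)
    (hF : FC (un N (N * R) Gs (gxt n σ κ)) N q A1 A2 (PS (kq s₁ (fun x => s₂ x - s₁ x)
      (chi (gxt n σ κ) R Gs l) (gxt n σ κ) (N * R) Gs) t) (eta n t) F z) :
    FD (fun x => R * (gx n σ x - Gs)) l N q A1 A2 (t / 2) (N * κ * R) (4 * R) F z := by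
  obtain ⟨T1, T2, h1, h2, h3⟩ := hF
  rw [un_R hN] at h2 h3
  have hx88 : 88 / 100 ≤ √(sq z.1) := by
    have := hz.1.1
    linarith
  have hs0 : 0 < sq z.1 := by
    have := sq_ge (by norm_num) hx88
    nlinarith
  refine ⟨T1, if T2 = 0 then 0 else if √(sq z.1) ≤ 95 / 100 then T2 else
    A2 * Real.exp (N * (R * (gx n σ z.1 - Gs))), h1.trans (add_le_add le_rfl ?_), ?_, ?_⟩
  · split_ifs with g1 g2
    · exact le_of_eq g1
    · exact le_rfl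
    · rcases h3 with h3 | ⟨-, h3⟩
      · exact absurd h3 g1
      · rw [h3]
        refine mul_le_mul_of_nonneg_left (Real.exp_le_exp.2 ?_) hA2
        have := gxt_le (n := n) (σ := σ) hκ z.1
        refine mul_le_mul_of_nonneg_left (mul_le_mul_of_nonneg_left ?_ (by linarith)) hN.le
        linarith
  · rcases h2 with h2 | ⟨h2, h2'⟩
    · exact Or.inl h2
    · right
      obtain ⟨w, hw, i, j, hk⟩ := h2
      obtain ⟨hc, hh⟩ := kq_ne hk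
      have hw1 := h_ne hNrm hh
      have h4 : Metric.ball z.1 (2 * t) ⊆ Metric.ball z.1 (rn n) := Metric.ball_subset_ball htr
      have h5 := (rt_ball rn_pos.le (h4 hw)).2
      rw [rn_mul] at h5
      have h6 : 99 / 100 ≤ √(sq z.1) := by linarith
      have h7 := sq_ge (by norm_num) h6
      have h8 : gxt n σ κ z.1 = gx n σ z.1 := gxt_eq (by linarith)
      have h9 := hlip z.1 hz.1 w hw
      rw [un_R hN, un_R hN, h8] at h9
      have h10 := chi_sc (by linarith) hc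
      rw [h8] at h2'
      exact ⟨by linarith [(abs_le.1 h9).2], h2'⟩
  · split_ifs with g1 g2
    · exact Or.inl rfl
    · right; right
      rcases h3 with h3 | ⟨-, h3⟩
      · exact absurd h3 g1
      · have h4 := sq_le g2
        have h5 : gxt n σ κ z.1 = gx n σ z.1 - κ := gxt_eq' hs0 (by linarith)
        have h6 := gx_bd hn hσ hσ1 hx88
        refine ⟨?_, ?_⟩
        · rw [abs_mul, abs_of_pos (by linarith : 0 < R), mul_comm]
          refine mul_le_mul_of_nonneg_right ?_ (by linarith)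
          rw [abs_le] at h6 ⊢
          constructor <;> linarith
        · rw [h3, h5]
          congr 2; ring
    · right; left
      rcases h3 with h3 | ⟨h3, -⟩
      · exact absurd h3 g1
      · refine ⟨?_, rfl⟩
        rcases eta_fd ht htn h3 with h4 | h4 | h4
        · left
          exact (pow_le_pow_left₀ (by positivity) h4 2).trans (norm_sq_le _)
        · exact absurd h4 g2
        · right
          have h5 := gx_far hn hσ hσ1 (x := z.1) (by linarith)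
          have h6 : R * (gx n σ z.1 - Gs) ≤ R * (-(80 / 100)) :=
            mul_le_mul_of_nonneg_left (by linarith) (by linarith)
          nlinarith

/-- The constant of the Gaussian integral. -/
def gI (n : ℕ) : ℝ := ∫ x : V n, gs 1 x

/-- The weighted size of one half of the error. -/
theorem er_half (hn : 1 ≤ n) (hσ : 0 < σ) (hσ1 : σ ≤ 1 / 10) (hκ : 0 ≤ κ) {D : ℝ} (hN : 0 < N)
    (hND : N = ν + D)
    (ha : 0 < a) (hb : 0 ≤ b) (hD : 2 * b + n + 4 + a + 10 ≤ D) (hq : q = D + n + 6 + b)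
    (hκN : N * κ = (2 * D + b) * 4 + b + (a + n + 4))
    (hR : 1 ≤ R) (hkap : kap = Real.exp l)
    (hl : 1 ≤ l) (hlR : l ≤ R) (hGs : -(1 / 50) ≤ Gs) (hGs0 : Gs ≤ 0) (ht : 0 < t)
    (htR : t = 1 / R ^ 2)
    (htn : (n + 1) * (2 * t) ≤ 1 / 100) (htr : 2 * t ≤ rn n) (hc : 0 < c)
    (hNrm : Nrm K' ε s₁ s₂ G) (hA2 : 0 ≤ A2) (hv : volume (OA n) ≤ ENNReal.ofReal (v ^ 2))
    (hlip : ∀ x ∈ OC n, ∀ w ∈ Metric.ball x (2 * t),
      |un N (N * R) Gs (gxt n σ κ) w - un N (N * R) Gs (gxt n σ κ) x| ≤ l / 4)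
    {p : ℕ} (hp : 2 * D + 2 * b + 2 * (n + 4) ≤ p)
    {W w : VV n → ℝ} (hW : WB s₁ s₂ σ a b c C₁ ν R kap Gs W w)
    {F : VV n → ℝ} (hF0 : ∀ z, F z ≠ 0 → z ∈ OC n ×ˢ OC n ∧ ‖z.1 - z.2‖ ≤ t)
    (hF : ∀ z ∈ OC n ×ˢ OC n, ‖z.1 - z.2‖ ≤ t →
      FC (un N (N * R) Gs (gxt n σ κ)) N q A1 A2 (PS (kq s₁ (fun x => s₂ x - s₁ x)
      (chi (gxt n σ κ) R Gs l) (gxt n σ κ) (N * R) Gs) t) (eta n t) F z) :
    ∃ g : VV n → ℝ, Integrable g ∧ (∀ z, 0 ≤ Wt W w F z ∧ Wt W w F z ≤ g z) ∧ ∫ z, g z ≤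
      2 * (Real.exp (2 * C₁) / (c * R ^ (-C₁)) * Real.exp (-((a + (n + 4 : ℕ)) * l))) *
        (A1 ^ 2 * gI n / √(c / n) ^ (n + 4) * v ^ 2 +
          A2 ^ 2 * (1 + p.factorial / (2 * (c / n) * (t / 2) ^ 2) ^ p) * (v ^ 2) ^ 2) := by
  have hn0 : (0 : ℝ) < n := by exact_mod_cast hn
  have hZ : OC n ⊆ Zq n := Ao_sub_Ac
  have hR0 : 0 < R := by linarith
  have hcw : 0 < c * R ^ (-C₁) := by positivity
  have hu : ContinuousOn (fun x => R * (gx n σ x - Gs)) (OA n) :=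
    continuousOn_const.mul ((((T4.gx_cd σ).continuousOn).mono fun x hx =>
      OA_ne (Ao_sub_Ac hx)).sub continuousOn_const)
  have hkk : ∀ x, T4.kk n σ R kap Gs x = Real.exp (l + R * (gx n σ x - Gs)) := by
    intro x; unfold T4.kk; rw [hkap, Real.exp_add]
  have hcast : ((n + 4 : ℕ) : ℝ) = n + 4 := by push_cast; ring
  have hu' : ∀ x, |R * (gx n σ x - Gs)| = R * |gx n σ x - Gs| := by
    intro x; rw [abs_mul, abs_of_pos hR0]
  refine s6c (isOpen_Ao _ _) (sq_nonneg v) hv hu (D := D) (S := N * κ * R) (U := 4 * R)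
    (Nr := {z | z ∈ OC n ×ˢ OC n ∧ ‖z.1 - z.2‖ ≤ t}) (N := N) (q := q) (b := b) p
    (by linarith) ha.le hb (by rw [hcast]; linarith) (by rw [hcast, hq]; linarith)
    (by rw [hcast]; exact hp) (div_pos hc hn0) hcw (by linarith) ?_ ?_ hF0 ?_ ?_ ?_ ?_
  · rw [hκN, hcast]
    have h1 : 0 ≤ (b + (a + (n + 4))) * (R - l) := mul_nonneg (by positivity) (by linarith)
    have h2 : 0 ≤ ((2 * D + b) * 4 + b + (a + n + 4)) * R := by
      have : 0 ≤ D := by nlinarith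
      positivity
    have h3 : (2 * D + b) * (4 * R) + b * l + (a + (n + 4)) * l ≤
        ((2 * D + b) * 4 + b + (a + n + 4)) * R := by nlinarith
    linarith
  · intro z hz
    have hA : OC n ⊆ OA n := Ao_mono (by norm_num) (by norm_num)
    exact ⟨hA hz.1.1, hA hz.1.2⟩
  · intro z hz
    exact FD_of hn hσ hσ1 hκ hN hR hl hlR hGs hGs0 ht htn htr hNrm hA2 hlip hz.1
      (hF z hz.1 hz.2)
  · intro z hz
    have h1 := hW.W1 z.1 (hZ hz.1.1) z.2 (hZ hz.1.2) (by rw [← htR]; exact hz.2)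
    have e2 : Real.exp (l + R * (gx n σ z.1 - Gs)) ^ 2 =
        Real.exp (2 * (l + R * (gx n σ z.1 - Gs))) := by
      rw [← Real.exp_nat_mul]; push_cast; rfl
    rw [hkk, e2] at h1
    have h2 := sq_le_norm (z.1 - z.2)
    have h3 : c / n * Real.exp (2 * (l + R * (gx n σ z.1 - Gs))) * sq (z.1 - z.2) ≤
        c * Real.exp (2 * (l + R * (gx n σ z.1 - Gs))) * ‖z.1 - z.2‖ ^ 2 := by
      calc c / n * Real.exp (2 * (l + R * (gx n σ z.1 - Gs))) * sq (z.1 - z.2)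
          ≤ c / n * Real.exp (2 * (l + R * (gx n σ z.1 - Gs))) * (n * ‖z.1 - z.2‖ ^ 2) :=
            mul_le_mul_of_nonneg_left h2 (by positivity)
        _ = _ := by field_simp
    have h4 : (N - D) * (R * (gx n σ z.1 - Gs)) = ν * R * (gx n σ z.1 - Gs) := by
      rw [hND]; ring
    show (N - D) * (R * (gx n σ z.1 - Gs)) + c / n * Real.exp (2 * (l + R * (gx n σ z.1 - Gs))) *
      sq (z.1 - z.2) - C₁ ≤ W (z.1, z.2)
    rw [h4]
    linarith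
  · intro z hz hu3
    have hu3' : -(3 / 4 * l) ≤ R * (gx n σ z.1 - Gs) := hu3
    have h1 := hW.w1 z.1 (hZ hz.1.1) z.2 (hZ hz.1.2) (by rw [← htR]; exact hz.2) (by
      rw [hkk, hkap, ← Real.exp_mul]
      exact Real.exp_le_exp.2 (by linarith))
    refine le_trans (le_of_eq ?_) h1
    show c * R ^ (-C₁) * Real.exp (a * l - b * |R * (gx n σ z.1 - Gs)|) = _
    rw [hu', hkap, ← Real.exp_mul, mul_assoc (c * R ^ (-C₁)), ← Real.exp_add]
    congr 2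
    ring
  · intro z hz
    have h1 := hW.w2 z.1 (hZ hz.1.1) z.2 (hZ hz.1.2) (by rw [← htR]; exact hz.2)
    refine le_trans (le_of_eq ?_) h1
    show c * R ^ (-C₁) * Real.exp (-(b * l) - b * |R * (gx n σ z.1 - Gs)|) = _
    rw [hu', hkap, ← Real.exp_mul, mul_assoc (c * R ^ (-C₁)), ← Real.exp_add]
    congr 2
    ring

/-- The weighted size of the error. -/
theorem er_gen (hn : 1 ≤ n) (hσ : 0 < σ) (hσ1 : σ ≤ 1 / 10) (hκ : 0 ≤ κ) {D : ℝ} (hN : 0 < N)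
    (hND : N = ν + D)
    (ha : 0 < a) (hb : 0 ≤ b) (hD : 2 * b + n + 4 + a + 10 ≤ D) (hq : q = D + n + 6 + b)
    (hκN : N * κ = (2 * D + b) * 4 + b + (a + n + 4))
    (hR : 1 ≤ R) (hkap : kap = Real.exp l)
    (hl : 1 ≤ l) (hlR : l ≤ R) (hGs : -(1 / 50) ≤ Gs) (hGs0 : Gs ≤ 0) (ht : 0 < t)
    (htR : t = 1 / R ^ 2)
    (htn : (n + 1) * (2 * t) ≤ 1 / 100) (htr : 2 * t ≤ rn n) (hc : 0 < c)
    (hNrm : Nrm K' ε s₁ s₂ G) (hA2 : 0 ≤ A2) (hv : volume (OA n) ≤ ENNReal.ofReal (v ^ 2))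
    (hlip : ∀ x ∈ OC n, ∀ w ∈ Metric.ball x (2 * t),
      |un N (N * R) Gs (gxt n σ κ) w - un N (N * R) Gs (gxt n σ κ) x| ≤ l / 4)
    {p : ℕ} (hp : 2 * D + 2 * b + 2 * (n + 4) ≤ p)
    {W w : VV n → ℝ} (hW : WB s₁ s₂ σ a b c C₁ ν R kap Gs W w)
    (hK : KP n σ κ N q l t R Gs s₁ s₂ A1 A2 A0 K0) :
    ∫ z, Real.exp (-(2 * W z)) * (Lx s₁ K0 z ^ 2 + Ly s₂ K0 z ^ 2) / w z ≤
      2 * (2 * (Real.exp (2 * C₁) / (c * R ^ (-C₁)) * Real.exp (-((a + (n + 4 : ℕ)) * l))) *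
        (A1 ^ 2 * gI n / √(c / n) ^ (n + 4) * v ^ 2 +
          A2 ^ 2 * (1 + p.factorial / (2 * (c / n) * (t / 2) ^ 2) ^ p) * (v ^ 2) ^ 2)) := by
  obtain ⟨g1, i1, b1, c1⟩ := er_half (A1 := A1) (F := fun z => Lx s₁ K0 z) hn hσ hσ1 hκ hN hND ha hb
    hD hq hκN hR hkap hl hlR hGs hGs0 ht htR htn htr hc hNrm hA2 hv hlip hp hW
    (fun z hz => hK.kN z (Or.inl hz)) (fun z hz hzt => (hK.kF z hz hzt).1)
  obtain ⟨g2, i2, b2, c2⟩ := er_half (A1 := A1) (F := fun z => Ly s₂ K0 z) hn hσ hσ1 hκ hN hND ha hb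
    hD hq hκN hR hkap hl hlR hGs hGs0 ht htR htn htr hc hNrm hA2 hv hlip hp hW
    (fun z hz => hK.kN z (Or.inr hz)) (fun z hz hzt => (hK.kF z hz hzt).2)
  have e : ∀ z, Real.exp (-(2 * W z)) * (Lx s₁ K0 z ^ 2 + Ly s₂ K0 z ^ 2) / w z =
      Wt W w (fun z => Lx s₁ K0 z) z + Wt W w (fun z => Ly s₂ K0 z) z := by
    intro z; unfold Wt; ring
  simp only [e]
  have h1 : ∫ z, (Wt W w (fun z => Lx s₁ K0 z) z + Wt W w (fun z => Ly s₂ K0 z) z) ≤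
      ∫ z, (g1 z + g2 z) := by
    refine integral_mono_of_nonneg (ae_of_all _ fun z => add_nonneg (b1 z).1 (b2 z).1)
      (i1.add i2) (ae_of_all _ fun z => add_le_add (b1 z).2 (b2 z).2)
  rw [integral_add i1 i2] at h1
  linarith

end

end Vale.Agent.P088.HY.S3
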