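import Vale.Agent.P088.R2.H673.P4.PF

/-!
# P088, stage 3, P4: the jets of the error near the diagonal, the far values
-/

open MeasureTheory Set Filter
open scoped ContDiff Matrix Topology

noncomputable section

namespace Vale.Agent.P088.HY.S3

open Vale.Agent.P088.LR Vale.Agent.P088.HY.QM
open Vale.Agent.P088.HY.T3 (e0 iv Eb Ac Ao Nrm isOpen_Ao isCompact_Ac isClosed_Ac rt_ball cont_rt)
open Vale.Agent.P088.HY.T4 (gy gx Lvl SelD Zq Oc WB)

variable {n : ℕ}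

section

variable {σ κ N q l t R Gs A1 A2 A0 Λ a b ν c C₁ kap ε v : ℝ} {s₁ s₂ : MF n} {Kq K' : ℕ}
  {K0 : VV n → ℝ} {G : Set (V n)}

/-- The jets of the error near the diagonal. -/
theorem jt_gen (hn : 1 ≤ n) {Kd : ℕ} (hKd : 2 ≤ Kd) (hKq : Kd + 2 ≤ Kq) (hε : ε ≤ 1 / 2)
    (hN : 0 < N) (hR : 8 ≤ R) (hC₁ : 3 ≤ C₁) (hkap : kap = Real.exp l) (ht : t = 1 / R ^ 2)
    (htn : (n + 1) * (2 * t) ≤ 1 / 100)
    (hQ : QDat Kq ε (OA n) (OB n) (OC n) (rn n) v 30 s₁ s₂ (gxt n σ κ) Λ (N * R))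
    {B bχ : ℝ} (hH : HDat Kq (OA n) (fun x => s₂ x - s₁ x) (chi (gxt n σ κ) R Gs l) (gxt n σ κ)
      (N * R) Gs N l q B bχ) (hT : TDat (rn n) Λ (N * R) N l q t) {M : ℝ} (hM : 0 ≤ M)
    (hJ : ∀ i j, Jl (OA n) Kq (fun x => M *
      Real.exp (N * un N (N * R) Gs (gxt n σ κ) x - q * |un N (N * R) Gs (gxt n σ κ) x|))
      (fun x => kq s₁ (fun x => s₂ x - s₁ x) (chi (gxt n σ κ) R Gs l)
        (gxt n σ κ) (N * R) Gs x i j))
    (hK : KP n σ κ N q l t R Gs s₁ s₂ A1 A2 A0 K0) :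
    ∀ p ∈ Ac n 1 12, ∀ m ≤ Kd, ∀ z ∈ Metric.ball ((p, p) : VV n)
      (2 / (R ^ C₁ + T4.kk n σ R kap Gs p)),
      ‖iteratedFDeriv ℝ m (fun z => Lx s₁ K0 z + Ly s₂ K0 z) z‖ ≤
        96 * cJ n Kd * M * Real.exp (-(2 * l)) *
          (Real.exp (N * (R * (gx n σ p - Gs)) - (q - 2) * |R * (gx n σ p - Gs)|)) *
          (R ^ C₁ + T4.kk n σ R kap Gs p) ^ m := by
  intro p hp m hm z hz
  have hkk : T4.kk n σ R kap Gs p = Real.exp (l + R * (gx n σ p - Gs)) := by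
    unfold T4.kk; rw [hkap, Real.exp_add]
  have hR1 : 1 ≤ R := by linarith
  have hR0 : 0 < R := by linarith
  have hRC : R ^ (3 : ℕ) ≤ R ^ C₁ := by
    rw [← Real.rpow_natCast]
    exact Real.rpow_le_rpow_of_exponent_le hR1 (by exact_mod_cast hC₁)
  set lam := R ^ C₁ + T4.kk n σ R kap Gs p with hlam
  have hkk0 : 0 < T4.kk n σ R kap Gs p := by rw [hkk]; exact Real.exp_pos _
  have hl8 : 8 * R ^ 2 ≤ lam := by
    have : 8 * R ^ 2 ≤ R ^ 3 := by nlinarith [sq_nonneg R]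
    linarith
  have hR2 : 1 ≤ R ^ 2 := one_le_pow₀ hR1
  have hl2 : 2 ≤ lam := by linarith
  have hl0 : 0 < lam := by linarith
  have ht0 : 0 < t := hT.t0
  have htl : 2 / lam ≤ t / 4 := by
    rw [ht, div_div, div_le_div_iff₀ hl0 (by positivity)]
    nlinarith
  have htl2 : 2 / lam ≤ 2 * t := by linarith
  have hpC : p ∈ OC n := ⟨by linarith [hp.1], by linarith [hp.2]⟩
  have hpO : Metric.ball p (rn n) ⊆ OA n := (hQ.sub2 _ hpC).trans hQ.s1
  have hsub : Metric.ball p (2 / lam) ⊆ OA n :=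
    (Metric.ball_subset_ball (htl2.trans hT.tr)).trans hpO
  have h1p := sq_ge (by norm_num) hp.1
  have hgp : gxt n σ κ p = gx n σ p := gxt_eq (by linarith)
  obtain ⟨j1, -⟩ := kq_loc hQ (by omega) hH hT hM hJ hpO
  rw [un_R hN, hgp] at j1
  set m0 := 3 * M * Real.exp (N * (R * (gx n σ p - Gs)) - q * |R * (gx n σ p - Gs)|) with hm0
  have hm00 : 0 ≤ m0 := by positivity
  have hs1 : ∀ i j, Jl (Metric.ball p (2 / lam)) (Kd + 1) (fun _ => 2) (fun x => s₁ x i j) :=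
    fun i j => ((hQ.n1.entry hQ.oO (by linarith) i j).ord (by omega)).sub_set hsub
  have hs2 : ∀ i j, Jl (Metric.ball p (2 / lam)) (Kd + 1) (fun _ => 2) (fun x => s₂ x i j) :=
    fun i j => ((hQ.n2.entry hQ.oO (by linarith) i j).ord (by omega)).sub_set hsub
  have hd : ∀ w ∈ Metric.ball ((p, p) : VV n) (2 / lam), eta n t w = 1 := by
    intro w hw
    have hw' : w.1 ∈ Metric.ball p (2 / lam) ∧ w.2 ∈ Metric.ball p (2 / lam) := by
      rw [← ball_prod_same p p] at hw; exact hw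
    have a1 := mem_ball_iff_norm.1 hw'.1
    have a2 := mem_ball_iff_norm.1 hw'.2
    have a3 : ‖w.1 - w.2‖ ≤ t / 2 := by
      calc ‖w.1 - w.2‖ = ‖(w.1 - p) - (w.2 - p)‖ := by congr 1; abel
        _ ≤ ‖w.1 - p‖ + ‖w.2 - p‖ := norm_sub_le _ _
        _ ≤ t / 2 := by linarith
    obtain ⟨b1, b2⟩ := sq_ball htn ht0 (x := w.1) (y := p) (by linarith)
    obtain ⟨b3, b4⟩ := sq_ball htn ht0 (x := w.2) (y := p) (by linarith)
    have hp1 := hp.1
    have hp2 := hp.2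
    exact eta_1 ht0 a3 ⟨by linarith, by linarith⟩ ⟨by linarith, by linarith⟩
  have key := diagJ hKd (s₁ := s₁) (s₂ := s₂) (η := eta n t) (K0 := K0) hl2 hm00 hs1 hs2
    (fun i j => ((j1 i j).ord hKq).sub_set (Metric.ball_subset_ball htl2))
    (fun y hy => kq_ipm hn hε hQ (hsub hy)) hd (fun z hz => hK.kL z hz) m hm z hz
  refine key.trans ?_
  have hcJ := cJ_nonneg n Kd
  have h2 : 1 / lam ^ 2 ≤ Real.exp (-(2 * l)) * Real.exp (2 * |R * (gx n σ p - Gs)|) := by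
    have h3 : Real.exp (l + R * (gx n σ p - Gs)) ^ 2 ≤ lam ^ 2 := by
      refine pow_le_pow_left₀ (Real.exp_pos _).le ?_ 2
      rw [hlam, hkk]
      have : 0 ≤ R ^ C₁ := by positivity
      linarith
    have h4 : 1 / lam ^ 2 ≤ 1 / Real.exp (l + R * (gx n σ p - Gs)) ^ 2 :=
      one_div_le_one_div_of_le (by positivity) h3
    refine h4.trans ?_
    rw [← Real.exp_nat_mul, one_div, ← Real.exp_neg, ← Real.exp_add]
    refine Real.exp_le_exp.2 ?_
    push_cast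
    have := neg_abs_le (R * (gx n σ p - Gs))
    linarith
  have e1 : Real.exp (N * (R * (gx n σ p - Gs)) - (q - 2) * |R * (gx n σ p - Gs)|) =
      Real.exp (N * (R * (gx n σ p - Gs)) - q * |R * (gx n σ p - Gs)|) *
        Real.exp (2 * |R * (gx n σ p - Gs)|) := by
    rw [← Real.exp_add]; congr 1; ring
  refine mul_le_mul_of_nonneg_right ?_ (by positivity)
  rw [e1]
  calc 32 * cJ n Kd * m0 / lam ^ 2 = 32 * cJ n Kd * m0 * (1 / lam ^ 2) := by ring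
    _ ≤ 32 * cJ n Kd * m0 * (Real.exp (-(2 * l)) * Real.exp (2 * |R * (gx n σ p - Gs)|)) :=
        mul_le_mul_of_nonneg_left h2 (by positivity)
    _ = _ := by rw [hm0]; ring

/-- The far values. -/
theorem fa_gen (hn : 1 ≤ n) (hσ : 0 < σ) (hσ1 : σ ≤ 1 / 10) (hκ : 0 ≤ κ) (hN : 0 < N) (hR : 1 ≤ R)
    (hGs : -(1 / 50) ≤ Gs) (ht : 0 < t) (htn : (n + 1) * (2 * t) ≤ 1 / 100) (hA0 : 0 ≤ A0)
    (hK : KP n σ κ N q l t R Gs s₁ s₂ A1 A2 A0 K0) {x y : V n}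
    (h : x ∈ Ac n 9 24 ∨ y ∈ Ac n 9 24) :
    |K0 (x, y)| ≤ A0 * Real.exp (-(8 / 10 * N * R)) := by
  by_cases hz : (x, y) ∈ tsupport (eta n t)
  · have h1 := eta_ts t hz
    have hcl : IsClosed {z : VV n | ‖z.1 - z.2‖ ≤ t} := by
      refine isClosed_le ?_ continuous_const
      fun_prop
    have h2 : ‖x - y‖ ≤ t := closure_minimal (fun z hz => (eta_nr ht hz).le) hcl hz
    have h3 : 89 / 10 ≤ √(sq x) := by
      rcases h with h | h
      · linarith [h.1]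
      · have := (sq_ball htn ht h2).1
        linarith [h.1]
    have h4 := gx_far hn hσ hσ1 h3
    have h5 := hK.kB (x, y) ⟨Ac_OC h1.1, Ac_OC h1.2⟩ h2
    refine h5.trans (mul_le_mul_of_nonneg_left (Real.exp_le_exp.2 ?_) hA0)
    rw [un_R hN]
    show N * (R * (gxt n σ κ x - Gs)) ≤ _
    have h6 := gxt_le (n := n) (σ := σ) hκ x
    have h7 : R * (gxt n σ κ x - Gs) ≤ R * (-(8 / 10)) :=
      mul_le_mul_of_nonneg_left (by linarith) (by linarith)
    have h8 := mul_le_mul_of_nonneg_left h7 hN.le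
    linarith
  · rw [hK.k0 _ hz, abs_zero]
    positivity

end

end Vale.Agent.P088.HY.S3
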