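import Vale.Agent.P088.R2.H673.P4.PF

/-!
# P088, stage 3, P4: the value of the form
-/

open MeasureTheory Set Filter
open scoped ContDiff Matrix Topology

noncomputable section

namespace Vale.Agent.P088.HY.S3

open Vale.Agent.P088.LR Vale.Agent.P088.HY.QM
open Vale.Agent.P088.HY.T3 (e0 iv Eb Ac Ao Nrm isOpen_Ao isCompact_Ac isClosed_Ac rt_ball cont_rt)
open Vale.Agent.P088.HY.T4 (gy gx Lvl SelD Zq Oc WB cg It)

variable {n : ℕ}

/-- Integrals of functions bounded on a part of the annulus. -/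
theorem int_ann {v c : ℝ} (hv : volume (OA n) ≤ ENNReal.ofReal (v ^ 2)) (hc : 0 ≤ c)
    {F : V n → ℝ} (h : ∀ x, |F x| ≤ (Ac n 11 12).indicator (fun _ => c) x) :
    |∫ x, F x| ≤ v ^ 2 * c := by
  have hm : MeasurableSet (Ac n 11 12) := (isClosed_Ac _ _).measurableSet
  have hsub : Ac n 11 12 ⊆ OA n := fun x hx => ⟨by linarith [hx.1], by linarith [hx.2]⟩
  have hvol : volume (Ac n 11 12) ≤ ENNReal.ofReal (v ^ 2) := (measure_mono hsub).trans hv
  have hi : Integrable ((Ac n 11 12).indicator (fun _ : V n => c)) := by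
    rw [integrable_indicator_iff hm]
    exact integrableOn_const (isCompact_Ac _ _).measure_lt_top.ne
  calc |∫ x, F x| ≤ ∫ x, |F x| := abs_integral_le_integral_abs
    _ ≤ ∫ x, (Ac n 11 12).indicator (fun _ => c) x :=
        integral_mono_of_nonneg (ae_of_all _ fun x => abs_nonneg _) hi (ae_of_all _ h)
    _ ≤ v ^ 2 * c := by
        rw [integral_indicator hm, setIntegral_const, smul_eq_mul, Measure.real]
        exact mul_le_mul_of_nonneg_right (ENNReal.toReal_le_of_le_ofReal (sq_nonneg _) hvol) hc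

section

variable {σ κ N q l t R Gs a b ν c C₁ kap ε v : ℝ} {s₁ s₂ : MF n} {K K' : ℕ}
  {G : Set (V n)} {φ : V n → ℝ}

theorem phi_far (hφ0 : ∀ x ∉ Ac n (998 / 1000) 12, φ x = 0)
    (hφ1 : ∀ x ∈ Ao n (999 / 1000) 11, φ x = 1) (hNrm : Nrm K' ε s₁ s₂ G) {x : V n}
    (h : s₂ x - s₁ x ≠ 0) (i : Fin n) : x ∉ Ac n 11 12 → pd i φ x = 0 := by
  intro hx
  have h1 := h_ne hNrm h
  rcases lt_or_ge (√(sq x)) 11 with h2 | h2
  · exact T3.pd_zero_of (isOpen_Ao (999 / 1000) 11) hφ1 ⟨by linarith, h2⟩ i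
  · have h3 : 12 < √(sq x) := by
      by_contra hc
      exact hx ⟨h2, not_lt.1 hc⟩
    have hU : IsOpen {x : V n | 12 < √(sq x)} := isOpen_lt continuous_const cont_rt
    exact T3.pd_zero_of hU (c := 0) (fun y hy => hφ0 y fun hc => by
      have : 12 < √(sq y) := hy
      linarith [hc.2]) h3 i

theorem gexp (hn : 1 ≤ n) (hσ : 0 < σ) (hσ1 : σ ≤ 1 / 10) (hR : 0 < R) (hN : 0 < N)
    (hGs : -(1 / 50) ≤ Gs) {x : V n} (hx : x ∈ Ac n 11 12) :
    N * R * (gx n σ x - Gs) ≤ -(8 / 10 * N * R) := by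
  have h4 := gx_far hn hσ hσ1 (x := x) (by linarith [hx.1])
  have h7 : N * R * (gx n σ x - Gs) ≤ N * R * (-(8 / 10)) :=
    mul_le_mul_of_nonneg_left (by linarith) (by positivity)
  linarith

/-- The error term. -/
theorem pr_err (hn : 1 ≤ n) (hσ : 0 < σ) (hσ1 : σ ≤ 1 / 10) (hκ : 0 ≤ κ) (hR : 0 < R) (hN : 0 < N)
    (hGs : -(1 / 50) ≤ Gs) (hNrm : Nrm K' ε s₁ s₂ G)
    (hv : volume (OA n) ≤ ENNReal.ofReal (v ^ 2))
    (hh : ∀ i j, ∀ x ∈ OA n, |s₂ x i j - s₁ x i j| ≤ 1)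
    (hφ0 : ∀ x ∉ Ac n (998 / 1000) 12, φ x = 0)
    (hφ1 : ∀ x ∈ Ao n (999 / 1000) 11, φ x = 1) {B : ℝ} (hB : 0 ≤ B)
    (hφB : ∀ i x, |pd i φ x| ≤ B) :
    |∫ p, ∑ i, ∑ j, |pd i φ p| * (|(s₂ p - s₁ p) i j| *
      Real.exp (N * R * (gxt n σ κ p - Gs)))| ≤
      v ^ 2 * (n * (n * (B * (1 * Real.exp (-(8 / 10 * N * R)))))) := by
  classical
  refine int_ann hv (by positivity) fun x => ?_
  by_cases hx : x ∈ Ac n 11 12
  · rw [indicator_of_mem hx]
    have hxO : x ∈ OA n := ⟨by linarith [hx.1], by linarith [hx.2]⟩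
    refine (Finset.abs_sum_le_sum_abs _ _).trans ?_
    have h0 : ∀ i : Fin n, |∑ j, |pd i φ x| * (|(s₂ x - s₁ x) i j| *
        Real.exp (N * R * (gxt n σ κ x - Gs)))| ≤
        n * (B * (1 * Real.exp (-(8 / 10 * N * R)))) := by
      intro i
      refine (Finset.abs_sum_le_sum_abs _ _).trans ?_
      refine (Finset.sum_le_card_nsmul Finset.univ _ (B * (1 * Real.exp (-(8 / 10 * N * R))))
        fun j _ => ?_).trans (le_of_eq ?_)
      · rw [abs_of_nonneg (by positivity)]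
        refine mul_le_mul (hφB i x) (mul_le_mul (hh i j x hxO) (Real.exp_le_exp.2 ?_)
          (Real.exp_pos _).le zero_le_one) (by positivity) hB
        refine le_trans ?_ (gexp hn hσ hσ1 hR hN hGs hx)
        have := gxt_le (n := n) (σ := σ) hκ x
        exact mul_le_mul_of_nonneg_left (by linarith) (by positivity)
      · rw [Finset.card_univ, Fintype.card_fin, nsmul_eq_mul]
    refine (Finset.sum_le_card_nsmul Finset.univ _ _ fun i _ => h0 i).trans (le_of_eq ?_)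
    rw [Finset.card_univ, Fintype.card_fin, nsmul_eq_mul]
  · rw [indicator_of_notMem hx]
    have h0 : ∑ i, ∑ j, |pd i φ x| * (|(s₂ x - s₁ x) i j| *
      Real.exp (N * R * (gxt n σ κ x - Gs))) = 0 := by
      refine Finset.sum_eq_zero fun i _ => Finset.sum_eq_zero fun j _ => ?_
      by_cases h : s₂ x - s₁ x = 0
      · rw [h]; simp
      · rw [phi_far hφ0 hφ1 hNrm h i hx]; simp
    rw [h0, abs_zero]

/-- The difference of the main terms. -/
theorem pr_main (hn : 1 ≤ n) (hσ : 0 < σ) (hσ1 : σ ≤ 1 / 10) (hR : 0 < R) (hN : 0 < N)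
    (hGs : -(1 / 50) ≤ Gs) (hNrm : Nrm K' ε s₁ s₂ G)
    (hl : l = Real.log kap)
    (hv : volume (OA n) ≤ ENNReal.ofReal (v ^ 2)) {Ct : ℝ} (hCt : 0 ≤ Ct)
    (htf : ∀ i j, Jl (OA n) 0 (fun _ => Ct)
      (fun x => tfp s₁ (fun x => s₂ x - s₁ x) x i j))
    (hφ : ContDiff ℝ ∞ φ)
    (hφ0 : ∀ x ∉ Ac n (998 / 1000) 12, φ x = 0)
    (hφ1 : ∀ x ∈ Ao n (999 / 1000) 11, φ x = 1) (hφb : ∀ x, |φ x| ≤ 1) :
    |(∫ p, φ p * (chi (gxt n σ κ) R Gs l p * Real.exp (2 * (N * R) * (gxt n σ κ p - Gs)) *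
      ∑ i, ∑ j, tfp s₁ (fun x => s₂ x - s₁ x) p i j ^ 2)) - It s₁ s₂ σ N R kap Gs| ≤
      v ^ 2 * (2 * (n * (n * Ct ^ 2)) * Real.exp (-(16 / 10 * N * R))) := by
  classical
  set T : V n → ℝ := fun x => ∑ i, ∑ j, tfp s₁ (fun x => s₂ x - s₁ x) x i j ^ 2 with hT
  have hTs : ContDiffOn ℝ ∞ T (OA n) := by
    refine ContDiffOn.sum fun i _ => ContDiffOn.sum fun j _ => (htf i j).1.pow 2
  have hT0 : ∀ x, 0 ≤ T x := fun x =>
    Finset.sum_nonneg fun i _ => Finset.sum_nonneg fun j _ => sq_nonneg _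
  have hTb : ∀ x ∈ OA n, T x ≤ n * (n * Ct ^ 2) := by
    intro x hx
    calc T x ≤ ∑ _i : Fin n, ∑ _j : Fin n, Ct ^ 2 := by
          refine Finset.sum_le_sum fun i _ => Finset.sum_le_sum fun j _ => ?_
          rw [← sq_abs]
          exact pow_le_pow_left₀ (abs_nonneg _) ((htf i j).abs hx) 2
      _ = n * (n * Ct ^ 2) := by
          rw [Finset.sum_const, Finset.sum_const, Finset.card_univ, Fintype.card_fin,
            nsmul_eq_mul, nsmul_eq_mul]
  have hTz : ∀ x, s₂ x - s₁ x = 0 → T x = 0 := by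
    intro x hx
    refine Finset.sum_eq_zero fun i _ => Finset.sum_eq_zero fun j _ => ?_
    have hij : ∀ i j, s₂ x i j - s₁ x i j = 0 := fun i j => by
      rw [← Matrix.sub_apply, hx]; rfl
    have : tfp s₁ (fun x => s₂ x - s₁ x) x i j = 0 := by
      unfold tfp ipm
      simp [hij]
    rw [this]; norm_num
  have hgc : ContDiffOn ℝ ∞ (gxt n σ κ) (OA n) := (gxt_cd σ κ).mono fun x hx => OA_ne (Ao_sub_Ac hx)
  have hgc' : ContDiffOn ℝ ∞ (gx n σ) (OA n) := (T4.gx_cd σ).mono fun x hx => OA_ne (Ao_sub_Ac hx)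
  set f1 : V n → ℝ := fun p => φ p * (chi (gxt n σ κ) R Gs l p *
    Real.exp (2 * (N * R) * (gxt n σ κ p - Gs)) * T p) with hf1
  set g2 : V n → ℝ := fun x => cg n σ R kap Gs x ^ 2 *
    R2.H238.S3.nh (tfp s₁ (fun x => s₂ x - s₁ x)) x *
      Real.exp (2 * (N * R * (gx n σ x - Gs))) with hg2
  have hnh : ∀ x, R2.H238.S3.nh (tfp s₁ (fun x => s₂ x - s₁ x)) x = T x := fun x => rfl
  have hchi : ContDiffOn ℝ ∞ (chi (gxt n σ κ) R Gs l) (OA n) := by
    have h1 : ContDiffOn ℝ ∞ (fun x => (R * (gxt n σ κ x - Gs) + l / 2) * (l / 4)⁻¹) (OA n) :=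
      ((contDiffOn_const.mul (hgc.sub contDiffOn_const)).add contDiffOn_const).mul contDiffOn_const
    exact (st_cd.comp_contDiffOn h1).pow 2
  have hφts : tsupport φ ⊆ Ac n (998 / 1000) 12 :=
    closure_minimal (fun x hx => by
      by_contra hc; exact hx (hφ0 x hc)) (isClosed_Ac _ _)
  have hφA : tsupport φ ⊆ OA n := fun x hx => by
    have := hφts hx
    exact ⟨by linarith [this.1], by linarith [this.2]⟩
  have hφc : HasCompactSupport φ :=
    (isCompact_Ac _ _).of_isClosed_subset (isClosed_tsupport _) hφts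
  have i1 : Integrable f1 := by
    have h1 : ContDiffOn ℝ ∞ (fun p => chi (gxt n σ κ) R Gs l p *
        Real.exp (2 * (N * R) * (gxt n σ κ p - Gs)) * T p) (OA n) :=
      (hchi.mul ((contDiffOn_const.mul (hgc.sub contDiffOn_const)).exp)).mul hTs
    have h2 : ContDiff ℝ ∞ f1 := cd_ext (isOpen_Ao _ _) hφ hφA h1
    exact h2.continuous.integrable_of_hasCompactSupport (hφc.mul_right)
  have hmAc : MeasurableSet (Ac n (99 / 100) 12) := (isClosed_Ac _ _).measurableSet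
  have hAcA : Ac n (99 / 100) 12 ⊆ OA n := fun x hx =>
    ⟨by linarith [hx.1], by linarith [hx.2]⟩
  have i2 : Integrable ((Ac n (99 / 100) 12).indicator g2) := by
    rw [integrable_indicator_iff hmAc]
    refine ContinuousOn.integrableOn_compact (isCompact_Ac _ _) ?_
    refine ContinuousOn.mono ?_ hAcA
    have h1 : ContDiffOn ℝ ∞ (fun x => (R * (gx n σ x - Gs) + Real.log kap / 2) *
        (Real.log kap / 4)⁻¹) (OA n) :=
      ((contDiffOn_const.mul (hgc'.sub contDiffOn_const)).add contDiffOn_const).mul contDiffOn_const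
    have h2 : ContDiffOn ℝ ∞ (cg n σ R kap Gs) (OA n) := st_cd.comp_contDiffOn h1
    exact (((h2.pow 2).mul hTs).mul
      ((contDiffOn_const.mul (contDiffOn_const.mul (hgc'.sub contDiffOn_const))).exp)).continuousOn
  have hIt : It s₁ s₂ σ N R kap Gs = ∫ x, (Ac n (99 / 100) 12).indicator g2 x := by
    rw [integral_indicator hmAc]; rfl
  rw [hIt, ← integral_sub i1 i2]
  refine int_ann hv (by positivity) fun x => ?_
  have hR0 : 0 ≤ (Ac n 11 12).indicator
      (fun _ => 2 * (n * (n * Ct ^ 2)) * Real.exp (-(16 / 10 * N * R))) x :=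
    indicator_nonneg (fun _ _ => by positivity) x
  by_cases hz : s₂ x - s₁ x = 0
  · have h1 : f1 x = 0 := by simp only [hf1]; rw [hTz x hz]; ring
    have h2 : (Ac n (99 / 100) 12).indicator g2 x = 0 := by
      by_cases hx : x ∈ Ac n (99 / 100) 12
      · rw [indicator_of_mem hx]; simp only [hg2]; rw [hnh, hTz x hz]; ring
      · rw [indicator_of_notMem hx]
    rw [h1, h2, sub_zero, abs_zero]; exact hR0
  have hx1 := h_ne hNrm hz
  have hx2 := sq_ge zero_le_one hx1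
  have hge : gxt n σ κ x = gx n σ x := gxt_eq (by linarith)
  have hce : chi (gxt n σ κ) R Gs l x = cg n σ R kap Gs x ^ 2 := by
    unfold chi cg; rw [hge, hl]
  rcases lt_or_ge 12 (√(sq x)) with h12 | h12
  · have h1 : φ x = 0 := hφ0 x fun hc => by linarith [hc.2]
    have h2 : x ∉ Ac n (99 / 100) 12 := fun hc => by linarith [hc.2]
    rw [indicator_of_notMem h2]
    simp only [hf1]
    rw [h1, zero_mul, sub_zero, abs_zero]; exact hR0
  have hxA : x ∈ Ac n (99 / 100) 12 := ⟨by linarith, h12⟩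
  have hE : f1 x - (Ac n (99 / 100) 12).indicator g2 x =
      (φ x - 1) * (cg n σ R kap Gs x ^ 2 * T x * Real.exp (2 * (N * R * (gx n σ x - Gs)))) := by
    rw [indicator_of_mem hxA]
    simp only [hf1, hg2]
    rw [hnh, hce, hge]
    rw [show 2 * (N * R) * (gx n σ x - Gs) = 2 * (N * R * (gx n σ x - Gs)) by ring]
    ring
  rw [hE]
  rcases lt_or_ge (√(sq x)) 11 with h11 | h11
  · rw [hφ1 x ⟨by linarith, h11⟩, sub_self, zero_mul, abs_zero]; exact hR0
  have hx11 : x ∈ Ac n 11 12 := ⟨h11, h12⟩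
  rw [indicator_of_mem hx11, abs_mul]
  have h1 : |φ x - 1| ≤ 2 := by
    refine (abs_sub _ _).trans ?_
    rw [abs_one]; linarith [hφb x]
  have h2 : cg n σ R kap Gs x ^ 2 ≤ 1 :=
    pow_le_one₀ (Real.smoothTransition.nonneg _) (Real.smoothTransition.le_one _)
  have h3 := gexp hn hσ hσ1 hR hN hGs hx11
  rw [abs_of_nonneg (mul_nonneg (mul_nonneg (sq_nonneg _) (hT0 x)) (Real.exp_pos _).le)]
  calc |φ x - 1| * (cg n σ R kap Gs x ^ 2 * T x * Real.exp (2 * (N * R * (gx n σ x - Gs))))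
      ≤ 2 * (1 * (n * (n * Ct ^ 2)) * Real.exp (-(16 / 10 * N * R))) := by
        refine mul_le_mul h1 (mul_le_mul (mul_le_mul h2 (hTb x (hAcA hxA)) (hT0 x) zero_le_one)
          (Real.exp_le_exp.2 (by linarith)) (Real.exp_pos _).le (by positivity))
          (mul_nonneg (mul_nonneg (sq_nonneg _) (hT0 x)) (Real.exp_pos _).le) (by norm_num)
    _ = _ := by ring

end

end Vale.Agent.P088.HY.S3
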