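import Vale.Agent.P088.R2.H673.P4.PG
import Vale.Agent.P088.R2.H673.P4.PH
import Vale.Agent.P088.R2.H673.P4.PI

/-!
# P088, stage 3, P4: existence of the quasimode, the steps
-/

open MeasureTheory Set Filter
open scoped ContDiff Matrix Topology

noncomputable section

namespace Vale.Agent.P088.HY.S3

open Vale.Agent.P088.LR Vale.Agent.P088.HY.QM
open Vale.Agent.P088.HY.T3 (e0 iv Eb Ac Ao Nrm isOpen_Ao isCompact_Ac isClosed_Ac rt_ball cont_rt)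
open Vale.Agent.P088.HY.T4 (gy gx Lvl SelD Zq Oc WB cg It RowP2 RowP4 QK)

variable {n : ℕ}

theorem HDat.ord {K K' : ℕ} {O : Set (V n)} {h : MF n} {χ G : V n → ℝ} {ρ Gs N l q B b : ℝ}
    (hH : HDat K O h χ G ρ Gs N l q B b) (hK : K' ≤ K) : HDat K' O h χ G ρ Gs N l q B b :=
  { hH with
    jh := fun i j => (hH.jh i j).ord hK
    jc := hH.jc.ord hK }

/-- The conditions on `R`. -/
structure RC (n : ℕ) (ρ2 C2 N q Λ R : ℝ) : Prop where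
  r8 : 8 ≤ R
  rρ : ρ2 ≤ N * R
  rC : C2 ≤ N * R
  rn : 200 * (n + 1) ≤ R
  rΛ : 2 * (N + q) * Λ ≤ R
  rΛ' : 8 * Λ ≤ R

section

variable {σ κ N q l t R Gs A1 A2 A0 Λ a b ν c C₁ kap ε v D δ s C ρ2 C2 : ℝ} {s₁ s₂ : MF n}
  {K K' Kq K7 J : ℕ} {G : Set (V n)} {ps : V n}

theorem t_facts (hR : RC n ρ2 C2 N q Λ R) (ht : t = 1 / R ^ 2) : 0 < t ∧ t ≤ 1 ∧
    (n + 1) * (2 * t) ≤ 1 / 100 ∧ 2 * t ≤ rn n := by
  have h8 := hR.r8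
  have hR0 : 0 < R := by linarith
  have h1 : 200 * (n + 1) ≤ R ^ 2 := by nlinarith [hR.rn]
  have hn : (0 : ℝ) ≤ n := Nat.cast_nonneg n
  refine ⟨by rw [ht]; positivity, ?_, ?_, ?_⟩
  · rw [ht, div_le_one (by positivity)]; nlinarith
  · rw [ht, ← mul_div_assoc, mul_one, ← mul_div_assoc, div_le_div_iff₀ (by positivity) (by norm_num)]
    linarith
  · rw [ht]
    unfold S3.rn
    rw [← mul_div_assoc, mul_one, div_le_div_iff₀ (by positivity) (by positivity)]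
    linarith

theorem tdat (hR : RC n ρ2 C2 N q Λ R) (ht : t = 1 / R ^ 2) (hN : 0 < N) (hl : 1 ≤ l) :
    TDat (rn n) Λ (N * R) N l q t := by
  obtain ⟨h1, -, -, h4⟩ := t_facts hR ht
  have h8 := hR.r8
  have hR0 : 0 < R := by linarith
  have e : N * R / N * (Λ * (2 * t)) = 2 * Λ / R := by
    rw [ht]; field_simp
  refine ⟨h1, h4, ?_, ?_⟩
  · rw [e, ← mul_div_assoc, div_le_one hR0]
    linarith [hR.rΛ]
  · rw [e, div_le_iff₀ hR0]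
    have := hR.rΛ'
    nlinarith

end

/-- The situation. -/
structure Sit (n : ℕ) (σ κ N q l t R Gs kap δ s C Λ v ε bχ Cη : ℝ) (Kq K' : ℕ) (s₁ s₂ : MF n)
    (G : Set (V n)) : Prop where
  hn : 1 ≤ n
  hσ : 0 < σ
  hσ1 : σ ≤ 1 / 10
  hκ : 0 ≤ κ
  hN : 1 ≤ N
  hq : 0 ≤ q
  hR : 8 ≤ R
  hkap : kap = Real.exp l
  hkη : kap ≤ Real.exp (1 / 50 * R)
  hl : 1 ≤ l
  hlR : l ≤ R
  ht : t = 1 / R ^ 2
  t0 : 0 < t
  t1 : t ≤ 1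
  tn : (n + 1) * (2 * t) ≤ 1 / 100
  tr : 2 * t ≤ rn n
  gs : -(1 / 50) ≤ Gs
  gs0 : Gs ≤ 0
  nrm : Nrm K' ε s₁ s₂ G
  vol : volume (OA n) ≤ ENNReal.ofReal (v ^ 2)
  hε : ε ≤ 1 / 2
  δ0 : 0 < δ
  δ1 : δ ≤ 1
  hs : 0 < s
  hs1 : s ≤ 1
  hC : 0 ≤ C
  bχ0 : 0 ≤ bχ
  Cη1 : 1 ≤ Cη
  hQ : QDat Kq ε (OA n) (OB n) (OC n) (rn n) v 30 s₁ s₂ (gxt n σ κ) Λ (N * R)
  hH : HDat Kq (OA n) (fun x => s₂ x - s₁ x) (chi (gxt n σ κ) R Gs l) (gxt n σ κ) (N * R) Gs N l q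
    (C * R ^ C * kap ^ s * δ) bχ
  hT : TDat (rn n) Λ (N * R) N l q t
  hE : EDat (OC n) t (eta n t) (Cη / t ^ 2)

/-- The pairing of the quasimode. -/
def Prg (n : ℕ) (σ κ N l t R Gs A : ℝ) (s₁ s₂ : MF n) (K0 : VV n → ℝ) : Prop :=
  ∀ c3 : V n → ℝ,
    (∀ x ∈ OC n, ∀ j, ∑ i, pd i (fun y => (s₂ y - s₁ y) i j) x = 0) →
    ContDiff ℝ ∞ c3 → HasCompactSupport c3 → tsupport c3 ⊆ OC n →
    (∀ p ∈ tsupport c3, ∀ᶠ z in 𝓝 ((p, p) : VV n), eta n t z = 1) →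
    |(∫ p, c3 p * ∑ i, ∑ j, (s₂ p - s₁ p) i j * dx i (dy j K0) (p, p)) -
      ∫ p, c3 p * (chi (gxt n σ κ) R Gs l p * Real.exp (2 * (N * R) * (gxt n σ κ p - Gs)) *
        ∑ i, ∑ j, tfp s₁ (fun x => s₂ x - s₁ x) p i j ^ 2)| ≤
      A * ∫ p, ∑ i, ∑ j, |pd i c3 p| * (|(s₂ p - s₁ p) i j| *
        Real.exp (N * R * (gxt n σ κ p - Gs)))

section

variable {σ κ N q l t R Gs kap δ s C Λ v ε bχ Cη a b ν c C₁ D A A1 aC Cg C' : ℝ} {s₁ s₂ : MF n}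
  {K K' Kq K7 Nq Kd mN p : ℕ} {G : Set (V n)} {K0 : VV n → ℝ}

/-- The inequalities between the constants. -/
theorem A_facts {C7 Y M7 be A : ℝ} {Nq : ℕ} (hC7 : 1 ≤ C7) (hbe : 1 ≤ be) (hY1 : 1 ≤ Y)
    (hM70 : 0 ≤ M7) (hA : A = C7 * be * 30 ^ 2 * Y ^ Nq * M7) :
    0 ≤ A ∧ C7 * M7 ≤ A ∧ C7 * 30 ^ 2 * Y ^ Nq * M7 ≤ A ∧ C7 * Y ^ Nq * M7 ≤ A := by
  have hYq : 1 ≤ Y ^ Nq := one_le_pow₀ hY1
  have hle : ∀ x y : ℝ, 1 ≤ x → 0 ≤ y → y ≤ x * y := fun x y hx hy =>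
    le_mul_of_one_le_left hy hx
  have hcM : 0 ≤ C7 * M7 := mul_nonneg (by linarith) hM70
  have hcY : 0 ≤ C7 * Y ^ Nq * M7 := mul_nonneg (mul_nonneg (by linarith) (by linarith)) hM70
  refine ⟨?_, ?_, ?_, ?_⟩
  · rw [hA]
    have : 0 ≤ be * 30 ^ 2 * (C7 * Y ^ Nq * M7) := mul_nonneg (by linarith) hcY
    calc 0 ≤ be * 30 ^ 2 * (C7 * Y ^ Nq * M7) := this
      _ = _ := by ring
  · have h1 : 1 ≤ be * 30 ^ 2 * Y ^ Nq := by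
      refine one_le_mul_of_one_le_of_one_le ?_ hYq
      exact one_le_mul_of_one_le_of_one_le hbe (by norm_num)
    refine (hle _ _ h1 hcM).trans (le_of_eq ?_)
    rw [hA]; ring
  · have h0 : 0 ≤ C7 * 30 ^ 2 * Y ^ Nq * M7 := by
      have : C7 * 30 ^ 2 * Y ^ Nq * M7 = 30 ^ 2 * (C7 * Y ^ Nq * M7) := by ring
      rw [this]; exact mul_nonneg (by norm_num) hcY
    refine (hle _ _ hbe h0).trans (le_of_eq ?_)
    rw [hA]; ring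
  · have h1 : 1 ≤ be * 30 ^ 2 := one_le_mul_of_one_le_of_one_le hbe (by norm_num)
    refine (hle _ _ h1 hcY).trans (le_of_eq ?_)
    rw [hA]; ring

theorem A_eq {C7 Cη Y M7 A aC Cχ r : ℝ} (hR : 0 < R) (ht : t = 1 / R ^ 2)
    (hbχ : bχ = Cχ * (4 * R * Λ) ^ (2 * Kq)) (hM7 : M7 = bχ * (N * R * Λ) ^ K7 *
      (C * R ^ C * kap ^ s * δ)) (hY : Y = N * R * Λ / r * (v + 1))
    (hA : A = C7 * (Cη / t ^ 2) * 30 ^ 2 * Y ^ Nq * M7)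
    (haC : aC = C7 * Cη * 30 ^ 2 * (N * Λ / r * (v + 1)) ^ Nq *
      (Cχ * (4 * Λ) ^ (2 * Kq) * (N * Λ) ^ K7 * C)) :
    A = aC * R ^ (4 + Nq + 2 * Kq + K7) * (R ^ C * kap ^ s * δ) := by
  have e1 : Cη / t ^ 2 = Cη * R ^ 4 := by rw [ht]; field_simp
  have e2 : Y ^ Nq = (N * Λ / r * (v + 1)) ^ Nq * R ^ Nq := by
    rw [hY, ← mul_pow]; congr 1; ring
  have e3 : bχ = Cχ * (4 * Λ) ^ (2 * Kq) * R ^ (2 * Kq) := by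
    rw [hbχ, show 4 * R * Λ = 4 * Λ * R by ring, mul_pow]; ring
  have e4 : (N * R * Λ) ^ K7 = (N * Λ) ^ K7 * R ^ K7 := by
    rw [show N * R * Λ = N * Λ * R by ring, mul_pow]
  rw [hA, hM7, e1, e2, e3, e4, haC, pow_add, pow_add, pow_add]
  ring

theorem Sit.lip (h : Sit n σ κ N q l t R Gs kap δ s C Λ v ε bχ Cη Kq K' s₁ s₂ G) (hK : 1 ≤ Kq) :
    ∀ x ∈ OC n, ∀ w ∈ Metric.ball x (2 * t),
      |un N (N * R) Gs (gxt n σ κ) w - un N (N * R) Gs (gxt n σ κ) x| ≤ l / 4 := by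
  intro x hx w hw
  have hN : 0 < N := by linarith [h.hN]
  exact (un_near (Gs := Gs) h.hQ hK hN h.hT.tr ((h.hQ.sub2 _ hx).trans h.hQ.s1) hw).trans h.hT.c2

/-- Supports. -/
theorem st_su (h : Sit n σ κ N q l t R Gs kap δ s C Λ v ε bχ Cη Kq K' s₁ s₂ G)
    (hK : KP n σ κ N q l t R Gs s₁ s₂ A1 A A K0) {z : VV n} (hz : K0 z ≠ 0) :
    z.1 ∈ Zq n ∧ z.2 ∈ Zq n ∧ ‖z.1 - z.2‖ ≤ 1 / R ^ 2 := by
  have h1 : z ∈ tsupport (eta n t) := by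
    by_contra hc; exact hz (hK.k0 z hc)
  have hcl : IsClosed {z : VV n | ‖z.1 - z.2‖ ≤ t} := by
    refine isClosed_le ?_ continuous_const
    fun_prop
  have h2 := eta_ts t h1
  refine ⟨Ao_sub_Ac (Ac_OC h2.1), Ao_sub_Ac (Ac_OC h2.2), ?_⟩
  rw [← h.ht]
  exact closure_minimal (fun z hz => (eta_nr h.t0 hz).le) hcl h1

/-- The weighted size of the error. -/
theorem st_er (h : Sit n σ κ N q l t R Gs kap δ s C Λ v ε bχ Cη Kq K' s₁ s₂ G) (hKq : 1 ≤ Kq)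
    (hK : KP n σ κ N q l t R Gs s₁ s₂ A1 A A K0) (hND : N = ν + D)
    (ha : 0 < a) (hb : 0 ≤ b) (hD : 2 * b + n + 4 + a + 10 ≤ D) (hq : q = D + n + 6 + b)
    (hκN : N * κ = (2 * D + b) * 4 + b + (a + n + 4)) (hc : 0 < c)
    (hp : 2 * D + 2 * b + 2 * (n + 4) ≤ p) (hA1 : 0 ≤ A1) (hA12 : A1 ≤ A)
    (hA : A = aC * R ^ mN * (R ^ C * kap ^ s * δ)) (hg0 : 0 ≤ gI n)
    (hC'1 : 4 * Real.exp (2 * C₁) / c * (gI n / √(c / n) ^ (n + 4) * v ^ 2 +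
      (1 + p.factorial / (c / (2 * n)) ^ p) * (v ^ 2) ^ 2) * aC ^ 2 ≤ C')
    (hC'2 : C₁ + 4 * p + 2 * mN + 2 * C ≤ C') {W w : VV n → ℝ}
    (hW : WB s₁ s₂ σ a b c C₁ ν R kap Gs W w) :
    ∫ z, Real.exp (-(2 * W z)) * (Lx s₁ K0 z ^ 2 + Ly s₂ K0 z ^ 2) / w z ≤
      C' * R ^ C' * kap ^ (4 * s) * δ ^ 2 * kap ^ (-(n + 4 + a) : ℝ) := by
  have hN : 0 < N := by linarith [h.hN]
  have hR1 : 1 ≤ R := by linarith [h.hR]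
  refine (er_gen h.hn h.hσ h.hσ1 h.hκ hN hND ha hb hD hq hκN hR1 h.hkap h.hl h.hlR h.gs h.gs0 h.t0
    h.ht h.tn h.tr hc h.nrm (hA1.trans hA12) h.vol (h.lip hKq) hp hW hK).trans ?_
  exact er_num h.hn hR1 h.hkap (by linarith [h.hl]) h.hs.le hc h.ht hA1 hA12 hA hg0 hC'1 hC'2

/-- The jets of the error near the diagonal. -/
theorem st_jt (h : Sit n σ κ N q l t R Gs kap δ s C Λ v ε bχ Cη Kq K' s₁ s₂ G)
    (hKd : 2 ≤ Kd) (hKqd : Kd + 2 ≤ Kq)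
    (hK : KP n σ κ N q l t R Gs s₁ s₂ A1 A A K0) (hND : N = ν + D) (hC₁ : 3 ≤ C₁)
    (hb : 0 ≤ b) (hq : q = D + n + 6 + b)
    {Ck Cχ Lj : ℝ} (hCk : 0 ≤ Ck) (hbχ : bχ = Cχ * (4 * R * Λ) ^ (2 * Kq))
    (hJ : ∀ i j, Jl (OA n) Kq (fun x => (Ck * bχ * (N * R * Λ) ^ Kq * (C * R ^ C * kap ^ s * δ)) *
        Real.exp (N * un N (N * R) Gs (gxt n σ κ) x - q * |un N (N * R) Gs (gxt n σ κ) x|))
        (fun x => kq s₁ (fun x => s₂ x - s₁ x) (chi (gxt n σ κ) R Gs l)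
          (gxt n σ κ) (N * R) Gs x i j))
    (hLj : Lj = Ck * (Cχ * (4 * Λ) ^ (2 * Kq)) * (N * Λ) ^ Kq * C)
    (hC'1 : 96 * cJ n Kd * Lj ≤ C') (hC'2 : ((2 * Kq + Kq : ℕ) : ℝ) + C ≤ C') (hC'0 : 0 ≤ C')
    {m : ℕ} (hm : m ≤ Kd) {x : V n} (hx : x ∈ Ac n 1 12) {z : VV n}
    (hz : z ∈ Metric.ball ((x, x) : VV n) (2 / (R ^ C₁ + T4.kk n σ R kap Gs x))) :
    ‖iteratedFDeriv ℝ m (fun z => Lx s₁ K0 z + Ly s₂ K0 z) z‖ ≤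
      C' * R ^ C' * kap ^ (2 * s - 2) * δ * Real.exp ((ν + D) * R * (gx n σ x - Gs)) *
        Real.exp (-((D + n + 4) * R * |gx n σ x - Gs|)) * (R ^ C₁ + T4.kk n σ R kap Gs x) ^ m := by
  have hN : 0 < N := by linarith [h.hN]
  have hR1 : 1 ≤ R := by linarith [h.hR]
  have hR0 : 0 < R := by linarith
  have hk0 : 0 < kap := by rw [h.hkap]; exact Real.exp_pos _
  have hB := h.hH.hB
  have hNR := h.hQ.ρ1
  have hΛ := h.hQ.Λ1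
  have hNRΛ : 0 ≤ (N * R * Λ) ^ Kq := by positivity
  have hM0 : 0 ≤ Ck * bχ * (N * R * Λ) ^ Kq * (C * R ^ C * kap ^ s * δ) :=
    mul_nonneg (mul_nonneg (mul_nonneg hCk h.bχ0) hNRΛ) hB
  have hMJ : Ck * bχ * (N * R * Λ) ^ Kq * (C * R ^ C * kap ^ s * δ) =
      Lj * R ^ (2 * Kq + Kq) * (R ^ C * kap ^ s * δ) := by
    have e3 : bχ = Cχ * (4 * Λ) ^ (2 * Kq) * R ^ (2 * Kq) := by
      rw [hbχ, show 4 * R * Λ = 4 * Λ * R by ring, mul_pow]; ring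
    have e4 : (N * R * Λ) ^ Kq = (N * Λ) ^ Kq * R ^ Kq := by
      rw [show N * R * Λ = N * Λ * R by ring, mul_pow]
    rw [e3, e4, hLj, pow_add]
    ring
  have h1 := jt_gen h.hn hKd hKqd h.hε hN h.hR hC₁ h.hkap h.ht h.tn h.hQ h.hH h.hT
    hM0 hJ hK x hx m hm z hz
  refine h1.trans ?_
  have hlam : 0 ≤ R ^ C₁ + T4.kk n σ R kap Gs x := by
    unfold T4.kk; positivity
  have h2 := jt_num (m := m) (N := N) (u := gx n σ x - Gs) (cj := cJ n Kd) (nn := (n : ℝ)) (D := D)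
    (C' := C') hR1 h.hkap (by linarith [h.hl]) h.hs.le h.δ0.le hb hq hlam (cJ_nonneg n Kd) hMJ
    hC'1 hC'2 hC'0
  refine h2.trans (le_of_eq ?_)
  rw [hND]

theorem Sit.k1 (h : Sit n σ κ N q l t R Gs kap δ s C Λ v ε bχ Cη Kq K' s₁ s₂ G) : 1 ≤ kap := by
  rw [h.hkap]; exact Real.one_le_exp (by linarith [h.hl])

/-- The far values. -/
theorem st_fa (h : Sit n σ κ N q l t R Gs kap δ s C Λ v ε bχ Cη Kq K' s₁ s₂ G)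
    (hK : KP n σ κ N q l t R Gs s₁ s₂ A1 A A K0) (hND : N = ν + D) (hν : 0 ≤ ν) (hD : 10 ≤ D)
    (hA0 : 0 ≤ A) (haC : 0 ≤ aC) (hA : A = aC * R ^ mN * (R ^ C * kap ^ s * δ))
    (hCg : R ^ (mN + C : ℝ) * Real.exp (-(R / 10)) ≤ Cg) (hC' : aC * Cg ≤ C')
    {x y : V n} (hxy : x ∈ Ac n 9 24 ∨ y ∈ Ac n 9 24) :
    |K0 (x, y)| ≤ C' * Real.exp (-(ν * R / 2)) := by
  have hN : 0 < N := by linarith [h.hN]
  have hR1 : 1 ≤ R := by linarith [h.hR]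
  have h1 := fa_gen h.hn h.hσ h.hσ1 h.hκ hN hR1 h.gs h.t0 h.tn hA0 hK hxy
  refine h1.trans ((fa_num hR1 h.k1 h.hkη le_rfl h.hs1 h.δ0.le h.δ1 haC hA hND hν hD hCg).trans ?_)
  exact mul_le_mul_of_nonneg_right hC' (Real.exp_pos _).le

end

end Vale.Agent.P088.HY.S3
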