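import Vale.Agent.P088.R2.H673.P4.PJ

/-!
# P088, stage 3, P4: the value of the form, existence of the kernel
-/

open MeasureTheory Set Filter
open scoped ContDiff Matrix Topology

noncomputable section

namespace Vale.Agent.P088.HY.S3

open Vale.Agent.P088.LR Vale.Agent.P088.HY.QM
open Vale.Agent.P088.HY.T3 (e0 iv Eb Ac Ao Nrm isOpen_Ao isCompact_Ac isClosed_Ac rt_ball cont_rt)
open Vale.Agent.P088.HY.T4 (gy gx Lvl SelD Zq Oc WB cg It RowP2 RowP4 QK)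

variable {n : ℕ}

section

variable {σ κ N q l t R Gs kap δ s C Λ v ε bχ Cη ν D A aC Cg Ct C' : ℝ} {s₁ s₂ : MF n}
  {K K' Kq mN : ℕ} {G : Set (V n)} {K0 : VV n → ℝ}

theorem Sit.hh (h : Sit n σ κ N q l t R Gs kap δ s C Λ v ε bχ Cη Kq K' s₁ s₂ G) :
    ∀ i j, ∀ x ∈ OA n, |s₂ x i j - s₁ x i j| ≤ 1 := by
  intro i j x _
  have h1 := h.nrm.cl₁ i j 0 (Nat.zero_le _) x
  have h2 := h.nrm.cl₂ i j 0 (Nat.zero_le _) x
  rw [norm_iteratedFDeriv_zero, Real.norm_eq_abs] at h1 h2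
  have h3 : s₂ x i j - s₁ x i j = (s₂ x i j - (1 : Matrix (Fin n) (Fin n) ℝ) i j) -
      (s₁ x i j - (1 : Matrix (Fin n) (Fin n) ℝ) i j) := by ring
  rw [h3]
  refine (abs_sub _ _).trans ?_
  linarith [h.hε]

theorem Sit.dv (h : Sit n σ κ N q l t R Gs kap δ s C Λ v ε bχ Cη Kq K' s₁ s₂ G) :
    ∀ x ∈ OC n, ∀ j, ∑ i, pd i (fun y => (s₂ y - s₁ y) i j) x = 0 := by
  intro x hx j
  have hx24 : x ∈ Eb (0 : V n) 24 := by
    rw [T3.mem_Eb0 (by norm_num)]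
    linarith [hx.2]
  have h1 := h.nrm.dv₁ x hx24 j
  have h2 := h.nrm.dv₂ x hx24 j
  have h3 : ∀ i, pd i (fun y => (s₂ y - s₁ y) i j) x =
      pd i (fun y => s₂ y i j) x - pd i (fun y => s₁ y i j) x := by
    intro i
    have e : (fun y => (s₂ y - s₁ y) i j) = fun y => s₂ y i j - 1 * s₁ y i j := by
      funext y; rw [Matrix.sub_apply, one_mul]
    rw [e, pd_subc (h.nrm.sm₂ i j) (h.nrm.sm₁ i j)]
    show pd i (fun y => s₂ y i j) x - 1 * pd i (fun y => s₁ y i j) x = _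
    rw [one_mul]
  simp only [h3, Finset.sum_sub_distrib, h1, h2, sub_zero]

theorem phi_ts {φ : V n → ℝ} (hφ0 : ∀ x ∉ Ac n (998 / 1000) 12, φ x = 0) :
    tsupport φ ⊆ Ac n (998 / 1000) 12 :=
  closure_minimal (fun x hx => by
    by_contra hc; exact hx (hφ0 x hc)) (isClosed_Ac _ _)

theorem Sit.e1 (h : Sit n σ κ N q l t R Gs kap δ s C Λ v ε bχ Cη Kq K' s₁ s₂ G) {φ : V n → ℝ}
    (hφ0 : ∀ x ∉ Ac n (998 / 1000) 12, φ x = 0) :
    ∀ p ∈ tsupport φ, ∀ᶠ z in 𝓝 ((p, p) : VV n), eta n t z = 1 := by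
  intro p hp
  have hp' := phi_ts hφ0 hp
  have hU : IsOpen {z : VV n | ‖z.1 - z.2‖ < t / 2 ∧ z.1 ∈ Ao n (94 / 100) 14 ∧
      z.2 ∈ Ao n (94 / 100) 14} := by
    have h7 : Continuous fun z : VV n => ‖z.1 - z.2‖ := by fun_prop
    exact (isOpen_lt h7 continuous_const).inter (((isOpen_Ao _ _).preimage
      continuous_fst).inter ((isOpen_Ao _ _).preimage continuous_snd))
  have hpA : p ∈ Ao n (94 / 100) 14 := ⟨by linarith [hp'.1], by linarith [hp'.2]⟩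
  have hm : ((p, p) : VV n) ∈ {z : VV n | ‖z.1 - z.2‖ < t / 2 ∧ z.1 ∈ Ao n (94 / 100) 14 ∧
      z.2 ∈ Ao n (94 / 100) 14} := by
    refine ⟨?_, hpA, hpA⟩
    show ‖p - p‖ < t / 2
    rw [sub_self, norm_zero]
    linarith [h.t0]
  exact eventually_of_mem (hU.mem_nhds hm) fun w hw =>
    eta_1 h.t0 hw.1.le (Ao_sub_Ac hw.2.1) (Ao_sub_Ac hw.2.2)

theorem pr_num {A B m X Y c3 C' E8 E16 E : ℝ} (hX : 0 ≤ X) (hB : 0 ≤ B)
    (h8 : A * E8 ≤ c3 * E) (h16 : E16 ≤ E) (hY : 0 ≤ Y) (hc3 : 0 ≤ c3) (hE : 0 ≤ E)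
    (hC' : c3 * X + Y ≤ C') (hm : m ≤ A * (X * B * E8) + Y * E16) :
    m ≤ C' * (1 + B) * E := by
  have g1 : A * (X * B * E8) ≤ X * B * (c3 * E) := by
    calc A * (X * B * E8) = X * B * (A * E8) := by ring
      _ ≤ _ := mul_le_mul_of_nonneg_left h8 (mul_nonneg hX hB)
  have g2 : Y * E16 ≤ Y * E := mul_le_mul_of_nonneg_left h16 hY
  have g3 : (c3 * X) * B + Y ≤ (c3 * X + Y) * (1 + B) := by
    have a1 : 0 ≤ c3 * X := mul_nonneg hc3 hX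
    have a2 : 0 ≤ Y * B := mul_nonneg hY hB
    linarith
  have g4 : (c3 * X + Y) * (1 + B) ≤ C' * (1 + B) := mul_le_mul_of_nonneg_right hC' (by linarith)
  calc m ≤ X * B * (c3 * E) + Y * E := by linarith
    _ = ((c3 * X) * B + Y) * E := by ring
    _ ≤ (C' * (1 + B)) * E := mul_le_mul_of_nonneg_right (g3.trans g4) hE

/-- The value of the form. -/
theorem st_pr (h : Sit n σ κ N q l t R Gs kap δ s C Λ v ε bχ Cη Kq K' s₁ s₂ G)
    (hP : Prg n σ κ N l t R Gs A s₁ s₂ K0) (hND : N = ν + D) (hν : 0 ≤ ν) (hD : 10 ≤ D)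
    (hA0 : 0 ≤ A) (haC : 0 ≤ aC) (hA : A = aC * R ^ mN * (R ^ C * kap ^ s * δ))
    (hCg : R ^ (mN + C : ℝ) * Real.exp (-(R / 10)) ≤ Cg) (hCg0 : 0 ≤ Cg)
    (hCt0 : 0 ≤ Ct) (hCt : ∀ (O : Set (V n)), IsOpen O →
    ∀ (ε : ℝ) (s h : MF n) (a : V n → ℝ), ε ≤ 1 / 2 → Ns O 0 ε s →
    (∀ i j, Jl O 0 a (fun x => h x i j)) →
    ∀ i j, Jl O 0 (fun x => Ct * a x) (fun x => tfp s h x i j))
    (hC' : aC * Cg * (v ^ 2 * (n * n)) + v ^ 2 * (2 * (n * (n * Ct ^ 2))) ≤ C')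
    {φ : V n → ℝ} (hφ : ContDiff ℝ ∞ φ)
    (hφ0 : ∀ x ∉ Ac n (998 / 1000) 12, φ x = 0)
    (hφ1 : ∀ x ∈ Ao n (999 / 1000) 11, φ x = 1) (hφb : ∀ x, |φ x| ≤ 1)
    {Bφ : ℝ} (hφB : ∀ i x, |pd i φ x| ≤ Bφ) :
    |(∫ x, φ x * ∑ i, ∑ j, (s₂ x i j - s₁ x i j) * dx i (dy j K0) (x, x)) -
        It s₁ s₂ σ (ν + D) R kap Gs| ≤ C' * (1 + Bφ) * Real.exp (-(ν * R / 2)) := by
  have hBφ : 0 ≤ Bφ := (abs_nonneg _).trans (hφB ⟨0, h.hn⟩ 0)
  have hN : 0 < N := by linarith [h.hN]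
  have hR1 : 1 ≤ R := by linarith [h.hR]
  have hR0 : 0 < R := by linarith
  have hφts := phi_ts hφ0
  have hφC : tsupport φ ⊆ OC n := fun x hx => by
    have := hφts hx
    exact ⟨by linarith [this.1], by linarith [this.2]⟩
  have hφc : HasCompactSupport φ :=
    (isCompact_Ac _ _).of_isClosed_subset (isClosed_tsupport _) hφts
  have hpair := hP φ h.dv hφ hφc hφC (h.e1 hφ0)
  have hJh : ∀ i j, Jl (OA n) 0 (fun _ => (1 : ℝ)) (fun x => (s₂ x - s₁ x) i j) := by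
    intro i j
    refine ⟨((h.nrm.sm₂ i j).sub (h.nrm.sm₁ i j)).contDiffOn, fun m hm x hx => ?_⟩
    have : m = 0 := by omega
    subst this
    rw [norm_iteratedFDeriv_zero, Real.norm_eq_abs]
    exact h.hh i j x hx
  have htf : ∀ i j, Jl (OA n) 0 (fun _ => Ct)
      (fun x => tfp s₁ (fun x => s₂ x - s₁ x) x i j) := fun i j => by
    have := hCt (OA n) h.hQ.oO ε s₁ (fun x => s₂ x - s₁ x) (fun _ => 1) h.hε
      (h.hQ.n1.ord (Nat.zero_le _)) hJh i j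
    simpa using this
  have hlog : l = Real.log kap := by rw [h.hkap, Real.log_exp]
  have hmain := pr_main (κ := κ) h.hn h.hσ h.hσ1 hR0 hN h.gs h.nrm hlog h.vol hCt0 htf hφ hφ0 hφ1 hφb
  have herr := pr_err h.hn h.hσ h.hσ1 h.hκ hR0 hN h.gs h.nrm h.vol h.hh hφ0 hφ1 hBφ hφB
  have hfa := fa_num hR1 h.k1 h.hkη le_rfl h.hs1 h.δ0.le h.δ1 haC hA hND hν hD hCg
  have h16 : Real.exp (-(16 / 10 * N * R)) ≤ Real.exp (-(ν * R / 2)) := by
    refine Real.exp_le_exp.2 ?_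
    have : 0 ≤ (16 / 10 * N - ν / 2) * R := mul_nonneg (by linarith) hR0.le
    linarith
  have hI0 := (le_abs_self _).trans herr
  rw [← hND]
  have hst : |(∫ x, φ x * ∑ i, ∑ j, (s₂ x i j - s₁ x i j) * dx i (dy j K0) (x, x)) -
      It s₁ s₂ σ N R kap Gs| ≤ A *
      (v ^ 2 * (n * (n * (Bφ * (1 * Real.exp (-(8 / 10 * N * R))))))) +
      v ^ 2 * (2 * (n * (n * Ct ^ 2)) * Real.exp (-(16 / 10 * N * R))) := by
    refine (abs_sub_le _ _ _).trans (add_le_add (hpair.trans ?_) hmain)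
    exact mul_le_mul_of_nonneg_left hI0 hA0
  refine pr_num (X := v ^ 2 * (n * n)) (Y := v ^ 2 * (2 * (n * (n * Ct ^ 2))))
    (by positivity) hBφ hfa h16 (by positivity) (mul_nonneg haC hCg0) (Real.exp_pos _).le hC'
    (hst.trans (le_of_eq ?_))
  ring

end

end Vale.Agent.P088.HY.S3
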