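import Vale.Agent.P088.R2.H673.P4.PK

/-!
# P088, stage 3, **row P4**: existence of the quasimode
-/

open MeasureTheory Set Filter
open scoped ContDiff Matrix Topology

noncomputable section

namespace Vale.Agent.P088.HY.S3

open Vale.Agent.P088.LR Vale.Agent.P088.HY.QM
open Vale.Agent.P088.HY.T3 (e0 iv Eb Ac Ao Nrm isOpen_Ao isCompact_Ac isClosed_Ac rt_ball cont_rt)
open Vale.Agent.P088.HY.T4 (gy gx Lvl SelD Zq Oc WB cg It RowP2 RowP4 QK)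

variable {n : ℕ}

/-- The conclusion of `qm7`. -/
def Q7 (n K Nq : ℕ) (C ε : ℝ) : Prop := ∀ {O O1 O2 : Set (V n)} {r v d : ℝ} {s₁ s₂ : MF n}
    {G : V n → ℝ} {Λ ρ : ℝ},
    QDat K ε O O1 O2 r v d s₁ s₂ G Λ ρ →
    ∀ {h : MF n} {χ : V n → ℝ} {Gs N l q B b : ℝ}, HDat K O h χ G ρ Gs N l q B b → 0 ≤ b →
    ∀ {t : ℝ} {η : VV n → ℝ} {be : ℝ}, TDat r Λ ρ N l q t →
    EDat O2 t η be →
    ∃ K0 : VV n → ℝ, ContDiff ℝ ∞ K0 ∧ (∀ z ∉ tsupport η, K0 z = 0) ∧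
    (∀ z ∉ tsupport (fderiv ℝ η), Lx s₁ K0 z = η z * Rx s₁ (kq s₁ h χ G ρ Gs) z ∧
      Ly s₂ K0 z = η z * Ry s₂ (kq s₁ h χ G ρ Gs) z) ∧
    (∀ z ∈ O2 ×ˢ O2, ‖z.1 - z.2‖ ≤ t →
      FC (un N ρ Gs G) N q (C * (b * (ρ * Λ) ^ K * B))
        (C * be * d ^ 2 * (ρ * Λ / r * (v + 1)) ^ Nq * (b * (ρ * Λ) ^ K * B))
        (PS (kq s₁ h χ G ρ Gs) t) η (fun z => Lx s₁ K0 z) z ∧
      FC (un N ρ Gs G) N q (C * (b * (ρ * Λ) ^ K * B))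
        (C * be * d ^ 2 * (ρ * Λ / r * (v + 1)) ^ Nq * (b * (ρ * Λ) ^ K * B))
        (PS (kq s₁ h χ G ρ Gs) t) η (fun z => Ly s₂ K0 z) z) ∧
    (∀ z, (Lx s₁ K0 z ≠ 0 ∨ Ly s₂ K0 z ≠ 0) → z ∈ O2 ×ˢ O2 ∧ ‖z.1 - z.2‖ ≤ t) ∧
    (∀ z ∈ O2 ×ˢ O2, ‖z.1 - z.2‖ ≤ t → |K0 z| ≤
      C * d ^ 2 * (ρ * Λ / r * (v + 1)) ^ Nq * (b * (ρ * Λ) ^ K * B) *
        Real.exp (N * un N ρ Gs G z.1)) ∧
    ∀ c3 : V n → ℝ,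
    (∀ x ∈ O2, ∀ j, ∑ i, pd i (fun y => h y i j) x = 0) →
    ContDiff ℝ ∞ c3 → HasCompactSupport c3 → tsupport c3 ⊆ O2 →
    (∀ p ∈ tsupport c3, ∀ᶠ z in 𝓝 ((p, p) : VV n), η z = 1) →
    |(∫ p, c3 p * ∑ i, ∑ j, h p i j * dx i (dy j K0) (p, p)) -
      ∫ p, c3 p * (χ p * Real.exp (2 * ρ * (G p - Gs)) * ∑ i, ∑ j, tfp s₁ h p i j ^ 2)| ≤
      C * (ρ * Λ / r * (v + 1)) ^ Nq * (b * (ρ * Λ) ^ K * B) *
        ∫ p, ∑ i, ∑ j, |pd i c3 p| * (|h p i j| * Real.exp (ρ * (G p - Gs)))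

section

variable {σ κ N q l t R Gs kap δ s C Λ v ε bχ Cη aC : ℝ} {s₁ s₂ : MF n}
  {K' Kq K7 Nq : ℕ} {G : Set (V n)}

/-- Existence of the kernel. -/
theorem mk_K0 {C7 ε7 Cχ : ℝ} (H7 : Q7 n K7 Nq C7 ε7) (hC7 : 1 ≤ C7)
    (h : Sit n σ κ N q l t R Gs kap δ s C Λ v ε bχ Cη Kq K' s₁ s₂ G)
    (hKq7 : K7 ≤ Kq) (hεε7 : ε ≤ ε7) (hv : 0 ≤ v) (hbχ : bχ = Cχ * (4 * R * Λ) ^ (2 * Kq))
    (haC : aC = C7 * Cη * 30 ^ 2 * (N * Λ / rn n * (v + 1)) ^ Nq *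
      (Cχ * (4 * Λ) ^ (2 * Kq) * (N * Λ) ^ K7 * C)) :
    ∃ (K0 : VV n → ℝ) (A A1 : ℝ), 0 ≤ A1 ∧ A1 ≤ A ∧
      A = aC * R ^ (4 + Nq + 2 * Kq + K7) * (R ^ C * kap ^ s * δ) ∧
      KP n σ κ N q l t R Gs s₁ s₂ A1 A A K0 ∧ HasCompactSupport K0 ∧
      Prg n σ κ N l t R Gs A s₁ s₂ K0 := by
  obtain ⟨K0, d1, d2, d3, d4, d5, d6, d7⟩ :=
    H7 (h.hQ.mono hKq7 hεε7) (h.hH.ord hKq7) h.bχ0 h.hT h.hE
  obtain ⟨M7, hM7⟩ : ∃ M7, M7 = bχ * (N * R * Λ) ^ K7 * (C * R ^ C * kap ^ s * δ) := ⟨_, rfl⟩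
  have hN := h.hN
  have hR := h.hR
  have hΛ := h.hQ.Λ1
  have hM70 : 0 ≤ M7 := by
    rw [hM7]
    exact mul_nonneg (mul_nonneg h.bχ0 (by positivity)) h.hH.hB
  rw [← hM7] at d4 d6 d7
  obtain ⟨Y, hY⟩ : ∃ Y, Y = N * R * Λ / rn n * (v + 1) := ⟨_, rfl⟩
  rw [← hY] at d4 d6 d7
  have hrn := rn_pos (n := n)
  have hY1 : 1 ≤ Y := by
    rw [hY]
    have h0 : 1 ≤ N * R := h.hQ.ρ1
    have h1 : 1 ≤ N * R * Λ / rn n := by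
      rw [le_div_iff₀ hrn, one_mul]
      have h2 := rn_le (n := n)
      have h3 : 1 ≤ N * R * Λ := one_le_mul_of_one_le_of_one_le h0 hΛ
      linarith
    exact one_le_mul_of_one_le_of_one_le h1 (by linarith)
  have hbe : 1 ≤ Cη / t ^ 2 := by
    have h0 := h.t0
    rw [le_div_iff₀ (by positivity), one_mul]
    have h1 : t ^ 2 ≤ 1 := pow_le_one₀ h.t0.le h.t1
    linarith [h.Cη1]
  obtain ⟨A, hA⟩ : ∃ A, A = C7 * (Cη / t ^ 2) * 30 ^ 2 * Y ^ Nq * M7 := ⟨_, rfl⟩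
  obtain ⟨hA0, hA1, hA2, hA3⟩ := A_facts hC7 hbe hY1 hM70 hA
  rw [← hA] at d4
  refine ⟨K0, A, C7 * M7, mul_nonneg (by linarith) hM70, hA1,
    A_eq (by linarith) h.ht hbχ hM7 hY hA haC, ?_, ?_, ?_⟩
  · exact
    { sm := d1
      k0 := d2
      kL := d3
      kF := d4
      kN := d5
      kB := fun z hz hzt => (d6 z hz hzt).trans (mul_le_mul_of_nonneg_right hA2
        (Real.exp_pos _).le) }
  · exact HasCompactSupport.intro (eta_cs t) fun z hz => d2 z hz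
  · intro c3 hdv hc3 hcs hts hη1
    refine (d7 c3 hdv hc3 hcs hts hη1).trans (mul_le_mul_of_nonneg_right hA3 ?_)
    exact integral_nonneg fun p => Finset.sum_nonneg fun i _ => Finset.sum_nonneg fun j _ =>
      mul_nonneg (abs_nonneg _) (mul_nonneg (abs_nonneg _) (Real.exp_pos _).le)

/-- Solvability. -/
theorem mk_solv {K2 K : ℕ} {ε2 C2 ρ2 : ℝ} (hN : 1 ≤ N)
    (H2 : ∀ s : MF n, SmM s → (∀ x, (s x).IsSymm) →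
      (∀ i j, Cl K2 ε2 (fun x => s x i j - (1 : Matrix (Fin n) (Fin n) ℝ) i j)) →
      (∀ x ∈ Eb (0 : V n) 24, ∀ j, ∑ i, pd i (fun y => s y i j) x = 0) →
      ∀ g : V n → ℝ, Lvl n 2 (σ / 2) (1 / 10) g → ∀ O : Set (V n), IsOpen O → O ⊆ Ao n (4 / 5) 24 →
      ∀ ρ : ℝ, ρ2 ≤ ρ → 1 ≤ ρ → S3.Solv O s (fun x => g (iv x)) ρ (C2 / ρ ^ 3))
    (hLvl : Lvl n 2 (σ / 2) (1 / 10) (gyt n σ κ)) (hRC : RC n ρ2 C2 N q Λ R)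
    (hNrm : Nrm (max K K2) ε s₁ s₂ G) (hε : ε ≤ ε2) :
    ∀ O : Set (V n), IsOpen O → O ⊆ Ao n (4 / 5) 24 →
      Solv O s₁ (gxt n σ κ) (N * R) 1 ∧ Solv O s₂ (gxt n σ κ) (N * R) 1 := by
  have hR8 := hRC.r8
  have hρ1 : 1 ≤ N * R := one_le_mul_of_one_le_of_one_le hN (by linarith)
  have hA : C2 / (N * R) ^ 3 ≤ 1 := by
    rw [div_le_one (by positivity)]
    have : N * R ≤ (N * R) ^ 3 := by
      calc N * R = (N * R) ^ 1 := (pow_one _).symm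
        _ ≤ _ := pow_le_pow_right₀ hρ1 (by norm_num)
    linarith [hRC.rC]
  intro O hO hOA
  have hcl : ∀ s : MF n, (∀ i j, Cl (max K K2) ε
      (fun x => s x i j - (1 : Matrix (Fin n) (Fin n) ℝ) i j)) →
      ∀ i j, Cl K2 ε2 (fun x => s x i j - (1 : Matrix (Fin n) (Fin n) ℝ) i j) :=
    fun s h i j m hm x => (h i j m (hm.trans (le_max_right _ _)) x).trans hε
  exact ⟨(H2 s₁ hNrm.sm₁ hNrm.sy₁ (hcl s₁ hNrm.cl₁) hNrm.dv₁ (gyt n σ κ) hLvl O hO hOA (N * R)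
      hRC.rρ hρ1).mono hA,
    (H2 s₂ hNrm.sm₂ hNrm.sy₂ (hcl s₂ hNrm.cl₂) hNrm.dv₂ (gyt n σ κ) hLvl O hO hOA (N * R)
      hRC.rρ hρ1).mono hA⟩

/-- The situation. -/
theorem mk_sit {K2 : ℕ} {C2 ρ2 Cχ : ℝ} {ps : V n} (hn : 1 ≤ n) (hσ : 0 < σ) (hσ1 : σ ≤ 1 / 10)
    (hκ : 0 ≤ κ) (hN : 1 ≤ N) (hq : 0 ≤ q) (hRC : RC n ρ2 C2 N q Λ R)
    (hl : l = Real.log kap) (hRk : R ≤ kap)
    (hkη : kap ≤ Real.exp (1 / 50 * R)) (ht : t = 1 / R ^ 2) (hGs : -(1 / 50) ≤ Gs)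
    (hNrm : Nrm (max Kq K2) ε s₁ s₂ G)
    (hvol : volume (OA n) ≤ ENNReal.ofReal (v ^ 2)) (hε : ε ≤ 1 / 2) (hs : 0 < s) (hs1 : s ≤ 1)
    (hC : 0 ≤ C) (hCχ : 0 ≤ Cχ) (hCη : 1 ≤ Cη)
    (HQ : ∀ {K' : ℕ} {ε : ℝ} {s₁ s₂ : MF n} {G : Set (V n)}, Kq ≤ K' → Nrm K' ε s₁ s₂ G →
      ∀ {ρ : ℝ}, 1 ≤ ρ → (∀ O : Set (V n), IsOpen O → O ⊆ Ao n (4 / 5) 24 →
        Solv O s₁ (gxt n σ κ) ρ 1 ∧ Solv O s₂ (gxt n σ κ) ρ 1) →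
      QDat Kq ε (OA n) (OB n) (OC n) (rn n) v 30 s₁ s₂ (gxt n σ κ) Λ ρ)
    (Hχ : ∀ {O : Set (V n)}, IsOpen O → ∀ {G : V n → ℝ},
      ContDiffOn ℝ ∞ G O → ∀ {Λ R Gs l : ℝ}, 1 ≤ Λ → 1 ≤ R → 1 ≤ l →
      (∀ i, 1 ≤ i → i ≤ Kq → ∀ x ∈ O, ‖iteratedFDeriv ℝ i G x‖ ≤ Λ) →
      Jl O Kq (fun _ => Cχ * (4 * R * Λ) ^ (2 * Kq)) (chi G R Gs l))
    (Hη : ∀ t : ℝ, 0 < t → t ≤ 1 → EDat (OC n) t (eta n t) (Cη / t ^ 2))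
    (hSolv : ∀ O : Set (V n), IsOpen O → O ⊆ Ao n (4 / 5) 24 →
      Solv O s₁ (gxt n σ κ) (N * R) 1 ∧ Solv O s₂ (gxt n σ κ) (N * R) 1)
    (hSel : SelD s₁ s₂ σ N q Kq C s R kap Gs δ ps) :
    Sit n σ κ N q l t R Gs kap δ s C Λ v ε (Cχ * (4 * R * Λ) ^ (2 * Kq)) Cη Kq (max Kq K2)
      s₁ s₂ G := by
  have hR8 := hRC.r8
  have hR1 : 1 ≤ R := by linarith
  have hN0 : 0 < N := by linarith
  have hρ1 : 1 ≤ N * R := one_le_mul_of_one_le_of_one_le hN (by linarith)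
  have hk0 : 0 < kap := by linarith
  have hkap : kap = Real.exp l := by rw [hl, Real.exp_log hk0]
  have hl1 : 1 ≤ l := by
    rw [hl, Real.le_log_iff_exp_le hk0]
    linarith [Real.exp_one_lt_d9]
  have hlR : l ≤ R := by
    have h1 : l ≤ 1 / 50 * R := by rw [hkap, Real.exp_le_exp] at hkη; exact hkη
    linarith
  obtain ⟨ht0, ht1, htn, htr⟩ := t_facts hRC ht
  have hQ : QDat Kq ε (OA n) (OB n) (OC n) (rn n) v 30 s₁ s₂ (gxt n σ κ) Λ (N * R) :=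
    HQ (le_max_left _ _) hNrm hρ1 hSolv
  have hχJ := Hχ hQ.oO hQ.smG (Gs := Gs) hQ.Λ1 hR1 hl1 hQ.dG
  have hΛ := hQ.Λ1
  exact
  { hn := hn
    hσ := hσ
    hσ1 := hσ1
    hκ := hκ
    hN := hN
    hq := hq
    hR := hR8
    hkap := hkap
    hkη := hkη
    hl := hl1
    hlR := hlR
    ht := ht
    t0 := ht0
    t1 := ht1
    tn := htn
    tr := htr
    gs := hGs
    gs0 := hSel.gs0
    nrm := hNrm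
    vol := hvol
    hε := hε
    δ0 := hSel.δ0
    δ1 := hSel.δ1.le
    hs := hs
    hs1 := hs1
    hC := hC
    bχ0 := mul_nonneg hCχ (by positivity)
    Cη1 := hCη
    hQ := hQ
    hH := hdat (κ := κ) (l := l) hN0 hR1 hq hC (by linarith) hNrm hSel le_rfl hχJ
    hT := tdat hRC ht hN0 hl1
    hE := Hη t ht0 ht1 }

end

end Vale.Agent.P088.HY.S3
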